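import Crest.Agent.N111.X.Two

/-!
# Row 111, module X: `CrossStmt`.
-/

set_option autoImplicit false

namespace Crest.Agent.N111

open Matrix

theorem cross : CrossStmt := by
  intro K _ _ _ I I₃ I₃' s L Φ Φ₃ Ψ₃ A B sc sc' h2 hc ht hp hg hm x x' hx hx' f g hf hg'
  have h : Cr.XH I I₃ I₃' s L Φ Φ₃ Ψ₃ A B sc sc' := ⟨h2, hc, ht, hp, hg, hm⟩
  by_cases e : x' ⨯₃ x = 0
  · obtain ⟨z, rfl⟩ := exists_smul_of_cross_eq_zero hx' e
    have hz : z ≠ 0 := fun e => hx (by rw [e, zero_smul])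
    rw [hp.scal _ hx' z hz f hf, hg.lift.proj _ hx' g hg']
    exact h.commute_ΦA hx' hf (hg'.comp measurable_nrm)
  · obtain ⟨γ, rfl, rfl⟩ := exists_ac_pair e
    rw [← hp.covU _ (ev_ne_zero 1) f hf, ← h.covΦ₃ (ev_ne_zero 0) hg']
    exact Cr.commute_conj _ _ (h.commute_01 hf hg')

end Crest.Agent.N111
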