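import Crest.Agent.N111.Api.FP
import Crest.Agent.N111.I.Uniq
import Crest.Agent.N111.Grp.Count

/-!
# Row 111, module X (`CrossStmt`): joint PVMs, membership in `N`, two legs.
-/

set_option autoImplicit false
set_option linter.unusedSectionVars false
set_option linter.unusedVariables false

namespace Crest.Agent.N111.Cr

open MeasureTheory Topology Filter Matrix
open scoped InnerProductSpace

variable {K : Type} [NormedAddCommGroup K] [InnerProductSpace ℂ K] [CompleteSpace K]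

/-! ### joint PVMs -/

section joint

variable {Y Ω : Type} [MeasurableSpace Y] [MeasurableSpace Ω]

theorem list_prod_update {M : Type*} [Monoid M] {n : ℕ} (i : Fin n) (a : M) :
    (List.ofFn (Function.update (fun _ : Fin n => (1 : M)) i a)).prod = a := by
  induction n with
  | zero => exact i.elim0
  | succ n ih =>
    rw [List.ofFn_succ, List.prod_cons]
    refine Fin.cases ?_ (fun i => ?_) i
    · simp
    · rw [Function.update_of_ne (Fin.succ_ne_zero i).symm, one_mul]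
      convert ih i using 4 with k
      simp only [Function.update_apply, Fin.succ_inj]

/-- the joint PVM of a commuting family, through its marginals -/
theorem exists_joint [StandardBorelSpace Y] {n : ℕ} {P : Fin n → POVM Y K}
    (hP : ∀ i, (P i).IsPVM) (h : ∀ i k f g, BM f → BM g → Commute ((P i).E f) ((P k).E g)) :
    ∃ J : POVM (Fin n → Y) K, J.IsPVM ∧ ∀ i f, BM f → J.E (fun z => f (z i)) = (P i).E f := by
  obtain ⟨J, hJ, h⟩ := POVM.exists_joint_fin hP h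
  refine ⟨J, hJ, fun i f hf => ?_⟩
  have := h (Function.update (fun _ _ => 1) i f) (BM.update (fun _ => BM.one) i hf)
  rw [word] at this
  convert this using 2
  · funext z
    rw [Finset.prod_eq_single i (fun k _ hk => by simp [hk]) (by simp)]; simp
  · rw [← list_prod_update i ((P i).E f)]
    congr 2
    funext k
    rcases eq_or_ne k i with rfl | hk
    · simp
    · simp [hk, (P k).E_one]

/-- the complement of the support of a word is negligible -/
theorem ae_mem_supp [TopologicalSpace Y] [SecondCountableTopology Y] [OpensMeasurableSpace Y]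
    {J : POVM Ω K} (hJ : J.IsPVM) {n : ℕ} {P : Fin n → POVM Y K} {φ : Fin n → Ω → Y}
    (hφ : ∀ i, Measurable (φ i)) (hm : ∀ i f, BM f → J.E (fun ω => f (φ i ω)) = (P i).E f)
    (η : K) : ∀ᵐ ω ∂J.ν η, (fun i => φ i ω) ∈ supp (word P) := by
  have hΦ : Measurable fun ω i => φ i ω := measurable_pi_lambda _ hφ
  refine ae_of_ae_map hΦ.aemeasurable (p := fun z => z ∈ supp (word P)) ?_
  refine measure_null_of_locally_null _ fun z hz => ?_
  simp only [supp, Set.mem_compl_iff, Set.mem_setOf_eq, not_forall, not_not] at hz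
  obtain ⟨O, hO, h0⟩ := hz
  have ho : IsOpen (Set.univ.pi fun i => interior (O i)) :=
    isOpen_set_pi Set.finite_univ fun _ _ => isOpen_interior
  refine ⟨_, mem_nhdsWithin_of_mem_nhds (ho.mem_nhds fun i _ => mem_interior_iff_mem_nhds.2 (hO i)),
    ?_⟩
  rw [Measure.map_apply hΦ ho.measurableSet]
  refine J.ν_eq_zero (hΦ ho.measurableSet) ?_
  have e : ic ((fun ω i => φ i ω) ⁻¹' Set.univ.pi fun i => interior (O i))
      = fun ω => ∏ i, ic (interior (O i)) (φ i ω) := by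
    funext ω
    by_cases h : ∀ i, φ i ω ∈ interior (O i)
    · rw [ic_of_mem (by simpa using h), Finset.prod_eq_one fun i _ => ic_of_mem (h i)]
    · rw [ic_of_notMem (by simpa using h)]
      obtain ⟨i, hi⟩ := not_forall.1 h
      exact (Finset.prod_eq_zero (Finset.mem_univ i) (ic_of_notMem hi)).symm
  have b : ∀ i, BM (ic (interior (O i))) := fun i => BM.ic isOpen_interior.measurableSet
  rw [e, hJ.E_prod _ fun i => (b i).comp (hφ i)]
  simp only [fun i => hm i _ (b i)]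
  rw [show (List.ofFn _).prod = _ from h0 _ b fun i y hy =>
    ic_of_notMem fun h => hy (interior_subset h)]
  rfl

theorem ae_ne_zero {J : POVM Ω K} {P : POVM V K} {φ : Ω → V} (hφ : Measurable φ)
    (hm : ∀ f, BM f → J.E (fun ω => f (φ ω)) = P.E f) (h0 : P.E (ic {0}) = 0) (η : K) :
    ∀ᵐ ω ∂J.ν η, φ ω ≠ 0 := by
  have := J.ν_eq_zero (hφ (measurableSet_singleton 0)) (η := η) (by
    rw [show ic (φ ⁻¹' {0}) = fun ω => ic {0} (φ ω) from funext (ic_preimage _ _),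
      hm _ (BM.ic (measurableSet_singleton 0)), h0]; rfl)
  exact measure_eq_zero_iff_ae_notMem.1 this

/-- an operator commuting with two marginals commutes with their joint functions -/
theorem commute_two {Y' : Type} [MeasurableSpace Y'] {J : POVM Ω K} (hJ : J.IsPVM) {φ : Ω → Y}
    {ψ : Ω → Y'} (hφ : Measurable φ) (hψ : Measurable ψ) {S : K →L[ℂ] K}
    (h1 : ∀ f, BM f → Commute S (J.E fun ω => f (φ ω)))
    (h2 : ∀ f, BM f → Commute S (J.E fun ω => f (ψ ω))) {F : Y × Y' → ℂ} (hF : BM F) :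
    Commute S (J.E fun ω => F (φ ω, ψ ω)) := by
  have := ((J.map _ (hφ.prodMk hψ)).isPoly1.mul S 1).ext_prod
    ((J.map _ (hφ.prodMk hψ)).isPoly1.mul 1 S) (fun f g hf hg => by
      simp only [POVM.map_E, mul_one, one_mul]
      rw [hJ _ _ (hf.comp hφ) (hg.comp hψ)]
      exact ((h1 f hf).mul_right (h2 g hg)).eq) F hF
  simpa only [POVM.map_E, mul_one, one_mul] using! this

end joint

/-! ### membership in `N` -/

variable {I I₃ I₃' : Ind K} {s : K →L[ℂ] K} {L : ℕ → ℝ} {Φ A : V → POVM V K} {sc : ℝ → ℝ}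

theorem mem_N_of {P : V → POVM V K}
    (gen : ∀ S : K →L[ℂ] K, (∀ T ∈ I.LimSet, Commute S T) → ∀ f, BM f → Commute S ((P (ev 0)).E f))
    (cov : ∀ x, x ≠ 0 → ∀ f, BM f → ∀ g, I.U g * (P x).E f * I.U g⁻¹ = (P (ac g x)).E f)
    {x : V} (hx : x ≠ 0) {f : V → ℂ} (hf : BM f) : (P x).E f ∈ I.N := by
  obtain ⟨g, rfl⟩ := exists_ac_ev hx 0
  rw [← cov _ (ev_ne_zero 0) f hf g]
  exact Ind.conj_N (I.mem_N.2 fun a ha =>
    gen a (fun T hT => I.mem_N.1 (Ind.limSet_N hT) a ha) f hf) g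

theorem pro_N (h : I.IsPro Φ) {x : V} (hx : x ≠ 0) {f : V → ℂ} (hf : BM f) : (Φ x).E f ∈ I.N :=
  mem_N_of h.gen h.covU hx hf

theorem lift_N (h : I.IsLift L Φ A sc) {x : V} (hx : x ≠ 0) {f : V → ℂ} (hf : BM f) :
    (A x).E f ∈ I.N := mem_N_of h.gen h.covU hx hf

theorem sc_one (h : I.IsLift L Φ A sc) : sc 1 = 1 := by
  have h1 := h.sc_mul 1 1 one_ne_zero one_ne_zero
  have h2 := h.sc_pos 1 one_ne_zero
  rw [mul_one] at h1
  exact (mul_left_cancel₀ h2.ne' (by rw [← h1, mul_one])).symm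

/-- `sc (e^{-k}) ≤ e^{C - L k}` -/
theorem sc_exp_neg (h : I.IsLift L Φ A sc) (hc : LC L sc) :
    ∃ C, ∀ᶠ k : ℕ in atTop, sc (Real.exp (-k)) ≤ Real.exp (C - L k) := by
  obtain ⟨C, hC⟩ := hc
  refine ⟨C / 2, hC.mono fun k hk => ?_⟩
  have p := fun t : ℝ => h.sc_pos _ (Real.exp_ne_zero t)
  have e : sc (Real.exp (2 * k)) * (sc (Real.exp (-k)) * sc (Real.exp (-k))) = 1 := by
    rw [← h.sc_mul _ _ (Real.exp_ne_zero _) (Real.exp_ne_zero _),
      ← h.sc_mul _ _ (Real.exp_ne_zero _) (by positivity), ← Real.exp_add, ← Real.exp_add,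
      show 2 * (k : ℝ) + (-k + -k) = 0 by ring, Real.exp_zero, sc_one h]
  have e2 := congrArg Real.log e
  rw [Real.log_mul (p _).ne' (mul_pos (p _) (p _)).ne', Real.log_mul (p _).ne' (p _).ne',
    Real.log_one] at e2
  rw [← Real.log_le_iff_le_exp (p _)]
  linarith [(abs_le.1 hk).1]

/-! ### two legs -/

section two

variable (h2 : I.Two s) (hc : I.IsConj I₃ s)
include h2 hc

theorem U_eq (g : G) : I₃.U g = I.U g := by
  rw [hc.U, MonoidHom.id_apply, (h2.s_U g).eq, mul_assoc, h2.s_s, mul_one]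

theorem ρ3_eq (μ : Γ) : I₃.ρ μ = s * I.ρ μ * s := hc.ρ μ

theorem ρ3_C (μ : Γ) : I₃.ρ μ ∈ I.C := by rw [ρ3_eq h2 hc]; exact h2.ρ_C μ

theorem sss (T : K →L[ℂ] K) : s * (s * T * s) * s = T := by
  rw [← mul_assoc, ← mul_assoc, h2.s_s, one_mul, mul_assoc, h2.s_s, mul_one]

theorem ρ_C3 (μ : Γ) : I.ρ μ ∈ I₃.C := by
  rw [hc.C]; exact ⟨_, h2.ρ_C μ, sss h2 hc _⟩

theorem C_decomp {a : K →L[ℂ] K} (ha : a ∈ I.C) : ∃ c ∈ I₃.C, ∃ μ, a = c * I₃.ρ μ := by
  obtain ⟨a', ha', μ, e⟩ := h2.Cρ a ha 1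
  refine ⟨s * a' * s, by rw [hc.C]; exact ⟨a', ha', rfl⟩, μ, ?_⟩
  rw [map_one, mul_one] at e
  rw [← sss h2 hc a, e, ρ3_eq h2 hc]
  simp only [mul_assoc]
  rw [← mul_assoc s s, h2.s_s, one_mul]

theorem Q3_Q {T : K →L[ℂ] K} (hT : T ∈ I₃.Q) : T ∈ I.Q := by
  refine ⟨I.mem_N.2 fun a ha => ?_, fun μ => (I₃.mem_N.1 hT.1 _ (ρ_C3 h2 hc μ)).symm⟩
  obtain ⟨c, hc', μ, rfl⟩ := C_decomp h2 hc ha
  exact (I₃.mem_N.1 hT.1 c hc').mul_left (hT.2 μ).symm

theorem jj3 : I₃.j * I₃.j = I₃.j := by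
  rw [hc.j]
  simp only [mul_assoc]
  rw [← mul_assoc s s, h2.s_s, one_mul, ← mul_assoc I.j, h2.jj]

theorem jρj3 {μ : Γ} (hμ : μ ≠ 1) : I₃.j * I₃.ρ μ * I₃.j = 0 := by
  rw [hc.j, ρ3_eq h2 hc]
  simp only [mul_assoc]
  rw [← mul_assoc s s, h2.s_s, one_mul, ← mul_assoc s s, h2.s_s, one_mul, ← mul_assoc I.j,
    ← mul_assoc (I.j * _), h2.jρj μ hμ, zero_mul, mul_zero]

theorem commute_m_m {F F' : Γ → ℂ} (hF : BM F) (hF' : BM F') : Commute (I.m F) (I₃.m F') := by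
  refine I₃.commute_m (fun μ => (I.mem_N.1 (I.m_N hF) _ (ρ3_C h2 hc μ)).symm) ?_ hF'
  refine (I.commute_m (fun μ => (I₃.Cj _ (ρ_C3 h2 hc μ)).symm) ?_ hF).symm
  rw [hc.j]; exact h2.j_j.symm

/-- on the third leg a bounded row operator factors through `J` -/
theorem J_xq {Y : K →L[ℂ] K} {C : ℝ} (h : I₃.RB Y C) (η : K) : I₃.J (I₃.xq Y η) = I₃.rw Y η := by
  ext μ
  refine ext_inner_left ℂ fun v => ?_
  have sa : ∀ a b, ⟪a, I₃.j b⟫_ℂ = ⟪I₃.j a, b⟫_ℂ := fun a b => by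
    rw [← ContinuousLinearMap.adjoint_inner_left, ← ContinuousLinearMap.star_eq_adjoint, I₃.j_sa]
  have e : ⟪I₃.J (I₃.ρ μ (I₃.j v)), I₃.rw Y η⟫_ℂ = ⟪v, I₃.rw Y η μ⟫_ℂ := by
    refine (LG.hasSum_inner _ _).unique ?_
    convert hasSum_single (f := fun ν => ⟪I₃.J (I₃.ρ μ (I₃.j v)) ν, I₃.rw Y η ν⟫_ℂ) μ
      fun ν hν => ?_ using 1
    · have jj : ∀ w, I₃.j (I₃.j w) = I₃.j w := fun w => congrArg (· w) (jj3 h2 hc)
      rw [I₃.J_apply, URep.inv_apply_apply, h.apply, ← sa, ← sa, jj, jj]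
    · have := congrArg (· v) (jρj3 h2 hc (μ := ν⁻¹ * μ) fun e => hν (inv_mul_eq_one.1 e))
      simp only [map_mul, ContinuousLinearMap.mul_apply, ContinuousLinearMap.zero_apply] at this
      simp only [I₃.J_apply, this, inner_zero_left]
  rw [I₃.J_apply, sa, URep.inner_right, inv_inv, ← e,
    ← ContinuousLinearMap.adjoint_inner_right I₃.J]
  rfl

end two

/-- three vectors of fixed volume: boundedly many lattice points move them into a ball -/
theorem mul_inv_mem_box3 {g g' : G} {a b c : V} {R D : ℝ} (hD : 0 < D) (h : |a ⬝ᵥ (b ⨯₃ c)| = D)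
    (ha : ‖ac g a‖ ≤ R) (hb : ‖ac g b‖ ≤ R) (hc : ‖ac g c‖ ≤ R) (ha' : ‖ac g' a‖ ≤ R)
    (hb' : ‖ac g' b‖ ≤ R) (hc' : ‖ac g' c‖ ≤ R) : g' * g⁻¹ ∈ box (6 * R ^ 3 / D) := fun k l => by
  have hR : 0 ≤ R := (norm_nonneg _).trans ha
  have id : ∀ u v w : V, (u ⬝ᵥ (v ⨯₃ w)) • ev l
      = (v ⨯₃ w) l • u + (w ⨯₃ u) l • v + (u ⨯₃ v) l • w := fun u v w => by
    funext i
    fin_cases i <;> fin_cases l <;>
      simp [ev, cross_apply, dotProduct, Fin.sum_univ_three] <;> ring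
  have e := congrArg (fun x => ac (g' * g⁻¹) x k) (id (ac g a) (ac g b) (ac g c))
  simp only [ac_add, ac_smul, ac_det, ← ac_mul, inv_mul_cancel_right, Pi.add_apply, Pi.smul_apply,
    smul_eq_mul, ac_ev] at e
  have t : ∀ u v w : V, ‖u‖ ≤ R → ‖v‖ ≤ R → ‖w‖ ≤ R → |(u ⨯₃ v) l * w k| ≤ 2 * R ^ 3 :=
    fun u v w hu hv hw => by
    rw [abs_mul]
    calc _ ≤ (2 * ‖u‖ * ‖v‖) * ‖w‖ := mul_le_mul
          ((norm_le_pi_norm (u ⨯₃ v) l).trans (norm_cross_le u v)) (norm_le_pi_norm w k)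
          (abs_nonneg _) (by positivity)
      _ ≤ (2 * R * R) * R := by gcongr
      _ = _ := by ring
  rw [le_div_iff₀ hD, ← h, ← abs_mul, mul_comm, e]
  linarith [abs_add_three ((ac g b ⨯₃ ac g c) l * ac g' a k) ((ac g c ⨯₃ ac g a) l * ac g' b k)
    ((ac g a ⨯₃ ac g b) l * ac g' c k), t _ _ _ hb hc ha', t _ _ _ hc ha hb', t _ _ _ ha hb hc']

end Crest.Agent.N111.Cr
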