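import Crest.Agent.N111.X.Basic

/-!
# Row 111, module X: the hypotheses, covariance, and the joint PVM of the third leg.
-/

set_option autoImplicit false
set_option linter.unusedSectionVars false
set_option linter.unusedVariables false

namespace Crest.Agent.N111.Cr

open MeasureTheory Topology Filter Matrix
open scoped InnerProductSpace

variable {K : Type} [NormedAddCommGroup K] [InnerProductSpace ℂ K] [CompleteSpace K]

/-- the hypotheses of `CrossStmt` -/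
structure XH (I I₃ I₃' : Ind K) (s : K →L[ℂ] K) (L : ℕ → ℝ) (Φ Φ₃ Ψ₃ A B : V → POVM V K)
    (sc sc' : ℝ → ℝ) : Prop where
  two : I.Two s
  conj : I.IsConj I₃ s
  tight : I.Tight L
  pro : I.IsPro Φ
  geo : Geo I₃ I₃' L Φ₃ Ψ₃ A B sc sc'
  com : Com L A B sc sc'

theorem conj_mul_conj {Λ : Type*} [Group Λ] (ρ : URep Λ K) (g : Λ) (a b : K →L[ℂ] K) :
    ρ g * a * ρ g⁻¹ * (ρ g * b * ρ g⁻¹) = ρ g * (a * b) * ρ g⁻¹ := by
  simp only [mul_assoc]
  rw [← mul_assoc (ρ g⁻¹), URep.inv_mul_self, one_mul]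

theorem commute_conj {Λ : Type*} [Group Λ] (ρ : URep Λ K) (g : Λ) {a b : K →L[ℂ] K}
    (h : Commute a b) : Commute (ρ g * a * ρ g⁻¹) (ρ g * b * ρ g⁻¹) := by
  rw [Commute, SemiconjBy, conj_mul_conj, conj_mul_conj, h.eq]

theorem conj_eq_zero {Λ : Type*} [Group Λ] (ρ : URep Λ K) (g : Λ) {a : K →L[ℂ] K}
    (h : ρ g * a * ρ g⁻¹ = 0) : a = 0 := by
  have : ρ g⁻¹ * (ρ g * a * ρ g⁻¹) * ρ g = a := by
    simp only [mul_assoc]
    rw [URep.inv_mul_self, mul_one, ← mul_assoc, URep.inv_mul_self, one_mul]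
  rw [← this, h, mul_zero, zero_mul]

theorem mul_eq_of_conj {Λ : Type*} [Group Λ] (ρ : URep Λ K) (g : Λ) {a b : K →L[ℂ] K}
    (h : ρ g * a * ρ g⁻¹ = b) : ρ g * a = b * ρ g := by
  rw [← h, mul_assoc, URep.inv_mul_self, mul_one]

/-- the joint PVM of `A e₀, A e₁, A e₂, B e₁, B e₂` -/
structure Jt (A B : V → POVM V K) (J : POVM (Fin 5 → V) K) (k D : ℝ) : Prop where
  pvm : J.IsPVM
  m0 : ∀ f, BM f → J.E (fun z => f (z 0)) = (A (ev 0)).E f
  m1 : ∀ f, BM f → J.E (fun z => f (z 1)) = (A (ev 1)).E f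
  m2 : ∀ f, BM f → J.E (fun z => f (z 2)) = (A (ev 2)).E f
  m3 : ∀ f, BM f → J.E (fun z => f (z 3)) = (B (ev 1)).E f
  m4 : ∀ f, BM f → J.E (fun z => f (z 4)) = (B (ev 2)).E f
  k_pos : 0 < k
  D_pos : 0 < D
  ae : ∀ η, ∀ᵐ z ∂J.ν η, (∀ i, z i ≠ 0) ∧ (z 0 ⨯₃ z 1 = k • z 4 ∨ z 0 ⨯₃ z 1 = -(k • z 4)) ∧
    (z 2 ⨯₃ z 0 = k • z 3 ∨ z 2 ⨯₃ z 0 = -(k • z 3)) ∧ |z 0 ⬝ᵥ (z 1 ⨯₃ z 2)| = D

@[fun_prop] theorem continuous_cross {α : Type*} [TopologicalSpace α] {a b : α → V}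
    (ha : Continuous a) (hb : Continuous b) : Continuous fun x => a x ⨯₃ b x := by
  refine continuous_pi fun i => ?_
  fin_cases i <;> simp [cross_apply] <;> fun_prop

@[fun_prop] theorem measurable_cross {α : Type*} [MeasurableSpace α] {a b : α → V}
    (ha : Measurable a) (hb : Measurable b) : Measurable fun x => a x ⨯₃ b x :=
  (continuous_cross continuous_fst continuous_snd).measurable.comp (ha.prodMk hb)

theorem sg_of_eq {a b : V} (h : a = b ∨ a = -b) : sg a = sg b := by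
  rcases h with rfl | rfl
  exacts [rfl, sg_neg b]

variable {I I₃ I₃' : Ind K} {s : K →L[ℂ] K} {L : ℕ → ℝ} {Φ Φ₃ Ψ₃ A B : V → POVM V K}
  {sc sc' : ℝ → ℝ}

namespace XH

variable (h : XH I I₃ I₃' s L Φ Φ₃ Ψ₃ A B sc sc')
include h

theorem covA {x : V} (hx : x ≠ 0) {f : V → ℂ} (hf : BM f) (g : G) :
    I.U g * (A x).E f * I.U g⁻¹ = (A (ac g x)).E f := by
  rw [← U_eq h.two h.conj, ← U_eq h.two h.conj]; exact h.geo.lift.covU x hx f hf g

theorem covB {y : V} (hy : y ≠ 0) {f : V → ℂ} (hf : BM f) (g : G) :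
    I.U g * (B y).E f * I.U g⁻¹ = (B (ac (dl g) y)).E f := by
  rw [← h.geo.lift'.covU y hy f hf (dl g), h.geo.dual.U_eq, h.geo.dual.U_eq, ← map_inv, dl_dl,
    dl_dl, U_eq h.two h.conj, U_eq h.two h.conj]

theorem covΦ₃ {x : V} (hx : x ≠ 0) {f : V → ℂ} (hf : BM f) (g : G) :
    I.U g * (Φ₃ x).E f * I.U g⁻¹ = (Φ₃ (ac g x)).E f := by
  rw [← U_eq h.two h.conj, ← U_eq h.two h.conj]; exact h.geo.pro.covU x hx f hf g

theorem ρB {y : V} (hy : y ≠ 0) {f : V → ℂ} (hf : BM f) (he : Ev f) (ν : Γ) :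
    I₃.ρ ν * (B y).E f * I₃.ρ ν⁻¹ = (B y).E fun a => f (ac (dl (ι ν⁻¹)) a) := by
  have := h.geo.lift'.covρ y hy f hf he (dl ν)
  rwa [h.geo.dual.ρ_eq, h.geo.dual.ρ_eq, ← map_inv, dl_dl, dl_dl, ι_dl] at this

theorem A_N {x : V} (hx : x ≠ 0) {f : V → ℂ} (hf : BM f) : (A x).E f ∈ I₃.N :=
  lift_N h.geo.lift hx hf

theorem B_N {y : V} (hy : y ≠ 0) {f : V → ℂ} (hf : BM f) : (B y).E f ∈ I₃.N :=
  h.geo.dual.N_eq ▸ lift_N h.geo.lift' hy hf

theorem ΦΦ {x x' : V} (hx : x ≠ 0) (hx' : x' ≠ 0) {f g : V → ℂ} (hf : BM f) (hg : BM g) :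
    Commute ((Φ x).E f) ((Φ x').E g) := by
  have u := uniq K I I₃ s Φ Φ₃ h.two.s_sa h.two.s_s h.two.s_U h.conj h.pro h.geo.pro
  have c : Commute ((Φ₃ x).E f) ((Φ₃ x').E g) := by
    rw [h.geo.lift.proj x hx f hf, h.geo.lift.proj x' hx' g hg]
    exact h.com.AA x x' hx hx' _ _ (hf.comp measurable_nrm) (hg.comp measurable_nrm)
  rw [u x hx f hf, u x' hx' g hg] at c
  exact (RelAux.UI.commute_iff ⟨h.two.s_sa, h.two.s_s⟩).1 c

theorem commute_B2 {S : K →L[ℂ] K} (h0 : ∀ f, BM f → Commute S ((A (ev 0)).E f))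
    (h1 : ∀ f, BM f → Commute S ((A (ev 1)).E f)) {f : V → ℂ} (hf : BM f) :
    Commute S ((B (ev 2)).E f) := by
  have e := ev_ne_zero
  obtain ⟨J, hJ, m⟩ := exists_joint (P := ![A (ev 0), A (ev 1), B (ev 2)])
    (fun i => by fin_cases i; exacts [h.geo.lift.pvm _, h.geo.lift.pvm _, h.geo.lift'.pvm _])
    (fun i k f g hf hg => by
      fin_cases i <;> fin_cases k <;> first
        | exact h.com.AA _ _ (e _) (e _) f g hf hg
        | exact h.com.AB _ _ (e _) (e _) f g hf hg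
        | exact (h.com.AB _ _ (e _) (e _) g f hg hf).symm
        | exact (h.geo.lift'.pvm _).commute hf hg)
  obtain ⟨k, hk, hc⟩ := h.com.cross
  have b : BM fun p : V × V => f (sg (k⁻¹ • (p.1 ⨯₃ p.2))) := hf.comp (by fun_prop)
  have e2 : (B (ev 2)).E f = J.E fun z => f (sg (k⁻¹ • (z 0 ⨯₃ z 1))) := by
    rw [h.geo.lift'.conc _ f hf, ← show _ = (B (ev 2)).E _ from m 2 _ (hf.comp measurable_sg)]
    refine J.E_congr_ae (hf.comp (by fun_prop)) (hf.comp (by fun_prop)) fun η => ?_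
    filter_upwards [ae_mem_supp hJ (φ := fun i z => z i) measurable_pi_apply m η,
      ae_ne_zero (measurable_pi_apply 0) (m 0) (h.geo.lift.zero _) η,
      ae_ne_zero (measurable_pi_apply 1) (m 1) (h.geo.lift.zero _) η,
      ae_ne_zero (measurable_pi_apply 2) (m 2) (h.geo.lift'.zero _) η] with z hz z0 z1 z2
    congr 1
    refine sg_of_eq ((hc z hz fun i => by fin_cases i <;> assumption).imp (fun e => ?_) fun e => ?_)
    · rw [e, inv_smul_smul₀ hk.ne']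
    · rw [e, smul_neg, inv_smul_smul₀ hk.ne', neg_neg]
  rw [e2]
  exact commute_two hJ (measurable_pi_apply 0) (measurable_pi_apply 1)
    (fun f hf => (m 0 f hf).symm ▸ h0 f hf) (fun f hf => (m 1 f hf).symm ▸ h1 f hf) b

theorem exists_jt : ∃ J k D, Jt A B J k D := by
  have e := ev_ne_zero
  have BB : ∀ f g, BM f → BM g → Commute ((B (ev 1)).E f) ((B (ev 2)).E g) := fun f g hf hg =>
    h.commute_B2 (fun g hg => (h.com.AB _ _ (e _) (e _) g f hg hf).symm)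
      (fun g hg => (h.com.AB _ _ (e _) (e _) g f hg hf).symm) hg
  obtain ⟨J, hJ, m⟩ := exists_joint (P := ![A (ev 0), A (ev 1), A (ev 2), B (ev 1), B (ev 2)])
    (fun i => by
      fin_cases i
      exacts [h.geo.lift.pvm _, h.geo.lift.pvm _, h.geo.lift.pvm _, h.geo.lift'.pvm _,
        h.geo.lift'.pvm _])
    (fun i k f g hf hg => by
      fin_cases i <;> fin_cases k <;> first
        | exact h.com.AA _ _ (e _) (e _) f g hf hg
        | exact h.com.AB _ _ (e _) (e _) f g hf hg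
        | exact (h.com.AB _ _ (e _) (e _) g f hg hf).symm
        | exact (h.geo.lift'.pvm _).commute hf hg
        | exact BB f g hf hg
        | exact (BB g f hg hf).symm)
  obtain ⟨k, hk, hc⟩ := h.com.cross
  obtain ⟨D, hD, hd⟩ := h.com.det
  obtain ⟨w, w0, w1, w2⟩ := exists_ac_triple (x := ev 2) (x' := ev 0) (x'' := ev 1)
    (by rw [Geo2.ev01, ev_dot_ev]; simp)
  have w3 : ac (dl w) (ev 2) = ev 1 := by
    rw [← Geo2.ev01, ← ac_cross, w0, w1]
    funext i; fin_cases i <;> simp [cross_apply, ev]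
  have hs : supp (word ![A (ev 2), A (ev 0), B (ev 1)])
      ⊆ supp (word ![A (ev 0), A (ev 1), B (ev 2)]) := fun z hz O hO h0 => hz O hO fun f hf hO => by
    have := h0 f hf hO
    rw [word_three] at this ⊢
    have a0 := h.covA (e 0) (hf 0) w
    have a1 := h.covA (e 1) (hf 1) w
    have a2 := h.covB (e 2) (hf 2) w
    rw [w0] at a0
    rw [w1] at a1
    rw [w3] at a2
    rw [← a0, ← a1, ← a2, conj_mul_conj, conj_mul_conj, this, mul_zero, zero_mul]
  refine ⟨J, k, D, hJ, m 0, m 1, m 2, m 3, m 4, hk, hD, fun η => ?_⟩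
  have ms : ∀ (c : Fin 3 → Fin 5) (P : Fin 3 → POVM V K),
      (∀ i, P i = ![A (ev 0), A (ev 1), A (ev 2), B (ev 1), B (ev 2)] (c i)) →
      ∀ᵐ z ∂J.ν η, (fun i => z (c i)) ∈ supp (word P) := fun c P hP =>
    ae_mem_supp hJ (φ := fun i z => z (c i)) (fun i => measurable_pi_apply _)
      (fun i f hf => by rw [hP]; exact m _ f hf) η
  filter_upwards [ms ![0, 1, 4] ![A (ev 0), A (ev 1), B (ev 2)] (fun i => by fin_cases i <;> rfl),
    ms ![2, 0, 3] ![A (ev 2), A (ev 0), B (ev 1)] (fun i => by fin_cases i <;> rfl),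
    ms ![0, 1, 2] ![A (ev 0), A (ev 1), A (ev 2)] (fun i => by fin_cases i <;> rfl),
    ae_ne_zero (measurable_pi_apply 0) (m 0) (h.geo.lift.zero _) η,
    ae_ne_zero (measurable_pi_apply 1) (m 1) (h.geo.lift.zero _) η,
    ae_ne_zero (measurable_pi_apply 2) (m 2) (h.geo.lift.zero _) η,
    ae_ne_zero (measurable_pi_apply 3) (m 3) (h.geo.lift'.zero _) η,
    ae_ne_zero (measurable_pi_apply 4) (m 4) (h.geo.lift'.zero _) η] with z s1 s2 s3 z0 z1 z2 z3 z4
  exact ⟨fun i => by fin_cases i <;> assumption, hc _ s1 fun i => by fin_cases i <;> assumption,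
    hc _ (hs s2) fun i => by fin_cases i <;> assumption,
    hd _ s3 fun i => by fin_cases i <;> assumption⟩

/-- `A e₀` is a function of `B e₁` and `B e₂` -/
theorem commute_A0 {S : K →L[ℂ] K} (h1 : ∀ f, BM f → Commute S ((B (ev 1)).E f))
    (h2 : ∀ f, BM f → Commute S ((B (ev 2)).E f)) {f : V → ℂ} (hf : BM f) :
    Commute S ((A (ev 0)).E f) := by
  obtain ⟨J, k, D, hJ⟩ := h.exists_jt
  have b : BM fun p : V × V => f (sg ((k ^ 2 / D) • (p.1 ⨯₃ p.2))) := hf.comp (by fun_prop)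
  have e2 : (A (ev 0)).E f = J.E fun z => f (sg ((k ^ 2 / D) • (z 3 ⨯₃ z 4))) := by
    rw [h.geo.lift.conc _ f hf, ← hJ.m0 _ (hf.comp measurable_sg)]
    refine J.E_congr_ae (hf.comp (by fun_prop)) (hf.comp (by fun_prop)) fun η => ?_
    filter_upwards [hJ.ae η] with z ⟨_, c2, c1, d⟩
    congr 1
    have id : (z 2 ⨯₃ z 0) ⨯₃ (z 0 ⨯₃ z 1) = (z 0 ⬝ᵥ (z 1 ⨯₃ z 2)) • z 0 := by
      funext i
      fin_cases i <;> simp [cross_apply, dotProduct, Fin.sum_univ_three] <;> ring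
    have hD := hJ.D_pos.ne'
    have e : ∀ u : V, (k ^ 2 / D) • u = D⁻¹ • k • k • u := fun u => by
      rw [smul_smul, smul_smul]; congr 1; ring
    refine sg_of_eq ?_
    rw [e]
    rcases c2 with c2 | c2 <;> rcases c1 with c1 | c1 <;> rcases eq_or_eq_neg_of_abs_eq d with d | d <;>
      rw [c1, c2, d] at id <;>
      simp only [map_smul, map_neg, LinearMap.smul_apply, LinearMap.neg_apply, neg_neg, neg_smul,
        smul_neg, neg_eq_iff_eq_neg] at id <;>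
      simp [id, inv_smul_smul₀ hD]
  rw [e2]
  exact commute_two hJ.pvm (measurable_pi_apply 3) (measurable_pi_apply 4)
    (fun f hf => (hJ.m3 f hf).symm ▸ h1 f hf) (fun f hf => (hJ.m4 f hf).symm ▸ h2 f hf) b

end XH

end Crest.Agent.N111.Cr
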