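import Crest.Agent.N111.X.Joint

/-!
# Row 111, module X: the boundary points of the second leg commute with the incident lines of the
third leg.
-/

set_option autoImplicit false
set_option linter.unusedSectionVars false
set_option linter.unusedVariables false

namespace Crest.Agent.N111.Cr

open MeasureTheory Topology Filter Matrix
open scoped InnerProductSpace

variable {K : Type} [NormedAddCommGroup K] [InnerProductSpace ℂ K] [CompleteSpace K]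
  {I I₃ I₃' : Ind K} {s : K →L[ℂ] K} {L : ℕ → ℝ} {Φ Φ₃ Ψ₃ A B : V → POVM V K}
  {sc sc' : ℝ → ℝ} {J : POVM (Fin 5 → V) K} {k D : ℝ}

/-- the indicator of a ball -/
noncomputable def χ (R : ℝ) : V → ℂ := ic (Metric.closedBall 0 R)

theorem bm_χ (R : ℝ) : BM (χ R) := BM.ic Metric.isClosed_closedBall.measurableSet

theorem χ_of_le {R : ℝ} {a : V} (h : ‖a‖ ≤ R) : χ R a = 1 := ic_of_mem (by simpa using h)

theorem χ_of_not {R : ℝ} {a : V} (h : ¬ ‖a‖ ≤ R) : χ R a = 0 := ic_of_notMem (by simpa using h)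

theorem ev_χ (R : ℝ) : Ev (χ R) := fun a => by
  by_cases h : ‖a‖ ≤ R
  · rw [χ_of_le h, χ_of_le (by simpa using h)]
  · rw [χ_of_not h, χ_of_not (by simpa using h)]

/-- the cut-off, moved by `g` -/
noncomputable def κ (R : ℝ) (g : G) (z : Fin 5 → V) : ℂ :=
  χ R (ac g (z 0)) * χ R (ac g (z 1)) * χ R (ac g (z 2)) * χ R (ac (dl g) (z 4))

theorem bm_κ (R : ℝ) (g : G) : BM (κ R g) :=
  ((((bm_χ R).comp (by fun_prop)).mul ((bm_χ R).comp (by fun_prop))).mul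
    ((bm_χ R).comp (by fun_prop))).mul ((bm_χ R).comp (by fun_prop))

theorem κ_cases (R : ℝ) (g : G) (z : Fin 5 → V) : κ R g z = 0 ∨ (κ R g z = 1 ∧ ‖ac g (z 0)‖ ≤ R ∧
    ‖ac g (z 1)‖ ≤ R ∧ ‖ac g (z 2)‖ ≤ R ∧ ‖ac (dl g) (z 4)‖ ≤ R) := by
  by_cases h0 : ‖ac g (z 0)‖ ≤ R <;> by_cases h1 : ‖ac g (z 1)‖ ≤ R <;>
    by_cases h2 : ‖ac g (z 2)‖ ≤ R <;> by_cases h4 : ‖ac (dl g) (z 4)‖ ≤ R <;>
    simp [κ, χ_of_le, χ_of_not, h0, h1, h2, h4]

theorem Jt.E_κ (hJ : Jt A B J k D) (R : ℝ) (g : G) : J.E (κ R g)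
    = (A (ev 0)).E (fun a => χ R (ac g a)) * (A (ev 1)).E (fun a => χ R (ac g a))
      * (A (ev 2)).E (fun a => χ R (ac g a)) * (B (ev 2)).E fun a => χ R (ac (dl g) a) := by
  have b : ∀ g, BM fun a => χ R (ac g a) := fun g => (bm_χ R).comp (by fun_prop)
  have c := fun g (i : Fin 5) => (b g).comp (measurable_pi_apply (X := fun _ : Fin 5 => V) i)
  rw [← hJ.m0 _ (b g), ← hJ.m1 _ (b g), ← hJ.m2 _ (b g), ← hJ.m4 _ (b _),
    ← hJ.pvm _ _ (c _ 0) (c _ 1), ← hJ.pvm _ _ ((c _ 0).mul (c _ 1)) (c _ 2),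
    ← hJ.pvm _ _ (((c _ 0).mul (c _ 1)).mul (c _ 2)) (c _ 4)]
  rfl

namespace XH

variable (h : XH I I₃ I₃' s L Φ Φ₃ Ψ₃ A B sc sc') (hJ : Jt A B J k D)
include h hJ

theorem κ_N (R : ℝ) : J.E (κ R 1) ∈ I₃.N := by
  have b : ∀ g, BM fun a => χ R (ac g a) := fun g => (bm_χ R).comp (by fun_prop)
  rw [hJ.E_κ]
  exact Ind.mul_N (Ind.mul_N (Ind.mul_N (h.A_N (ev_ne_zero _) (b _)) (h.A_N (ev_ne_zero _) (b _)))
    (h.A_N (ev_ne_zero _) (b _))) (h.B_N (ev_ne_zero _) (b _))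

theorem ρ_κ (R : ℝ) (μ : Γ) : I₃.ρ μ * J.E (κ R 1) * I₃.ρ μ⁻¹ = J.E (κ R (ι μ⁻¹)) := by
  have a := fun i => h.geo.lift.covρ _ (ev_ne_zero i) _ (bm_χ R) (ev_χ R) μ
  rw [hJ.E_κ, hJ.E_κ, ← a, ← a, ← a, ← h.ρB (ev_ne_zero _) (bm_χ R) (ev_χ R), conj_mul_conj,
    conj_mul_conj, conj_mul_conj]
  simp only [map_one, ac_one]

/-- finite overlap -/
theorem sum_κ_le (R : ℝ) : ∃ C, 0 ≤ C ∧ ∀ (w : K) (F : Finset Γ),
    ∑ μ ∈ F, ‖J.E (κ R 1) (I₃.ρ μ⁻¹ w)‖ ^ 2 ≤ C ^ 2 * ‖w‖ ^ 2 := by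
  classical
  refine ⟨√(nbox (6 * R ^ 3 / D)), Real.sqrt_nonneg _, fun w F => ?_⟩
  let S : Set (Fin 5 → V) := {z | |z 0 ⬝ᵥ (z 1 ⨯₃ z 2)| = D}
  have hS : MeasurableSet S := (isClosed_eq (by fun_prop) continuous_const).measurableSet
  have e : ∀ μ, ‖J.E (κ R 1) (I₃.ρ μ⁻¹ w)‖ = ‖J.E (fun z => ic S z * κ R (ι μ⁻¹) z) w‖ := fun μ => by
    rw [← (I₃.ρ).norm_map μ, J.E_apply_congr ((BM.ic hS).mul (bm_κ R (ι μ⁻¹))) (bm_κ R (ι μ⁻¹))
      ((hJ.ae w).mono fun z hz => by simp only [ic_of_mem (show z ∈ S from hz.2.2.2), one_mul]),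
      ← h.ρ_κ hJ]
    rfl
  simp only [e]
  rw [Real.sq_sqrt (Nat.cast_nonneg _)]
  refine J.sum_norm_E_sq_le F (fun μ _ => (BM.ic hS).mul (bm_κ R _)) (fun z => ?_) w
  by_cases hz : z ∈ S
  swap
  · simp [hz]
  have : ∀ μ ∈ F, ‖ic S z * κ R (ι μ⁻¹) z‖ ^ 2 = if κ R (ι μ⁻¹) z ≠ 0 then 1 else 0 := fun μ _ => by
    rw [ic_of_mem hz, one_mul]
    rcases κ_cases R (ι μ⁻¹) z with e | ⟨e, -⟩ <;> rw [e] <;> simp
  rw [Finset.sum_congr rfl this, Finset.sum_boole, Nat.cast_le]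
  rcases (F.filter fun μ => κ R (ι μ⁻¹) z ≠ 0).eq_empty_or_nonempty with e | ⟨μ₀, h₀⟩
  · rw [e]; simp
  refine card_le_nbox _ (fun μ => μ⁻¹ * μ₀) (fun a _ b _ e => inv_injective (mul_right_cancel e))
    fun μ hμ => ?_
  obtain ⟨-, a0, a1, a2, -⟩ := (κ_cases R (ι μ₀⁻¹) z).resolve_left (Finset.mem_filter.1 h₀).2
  obtain ⟨-, b0, b1, b2, -⟩ := (κ_cases R (ι μ⁻¹) z).resolve_left (Finset.mem_filter.1 hμ).2
  simpa using mul_inv_mem_box3 hJ.D_pos hz a0 a1 a2 b0 b1 b2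

theorem exists_tz : ∃ R : ℝ, I₃.tz (J.E (κ R 1)) ≠ 0 := by
  have t := J.tendsto_E (f := fun n : ℕ => κ n 1) (g := fun _ => 1) (C := 1)
    (fun n => (bm_κ n 1).1) (fun n z => by rcases κ_cases n 1 z with e | e <;> simp [e])
    (fun z => tendsto_const_nhds.congr' ((eventually_ge_atTop ⌈‖z‖⌉₊).mono fun n hn => by
      have : ∀ i, ‖z i‖ ≤ n := fun i =>
        (norm_le_pi_norm z i).trans ((Nat.le_ceil _).trans (by exact_mod_cast hn))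
      simp [κ, χ_of_le, this])) I₃.ξ
  have hξ : 0 < ‖I₃.ξ‖ := norm_pos_iff.2 I₃.ξ_ne
  obtain ⟨n, hn⟩ := (Metric.tendsto_nhds.1 t _ hξ).exists
  refine ⟨n, fun h0 => ?_⟩
  have := Ind.norm_tz_sub_le (h.κ_N hJ n) I₃.one_N
  rw [h0, Ind.tz_one, J.E_star (bm_κ _ _), star_one, le_div_iff₀ hξ,
    show (fun z => (starRingEnd ℂ) (κ n 1 z)) = κ n 1 from funext fun z => by
      rcases κ_cases n 1 z with e | e <;> simp [e]] at this
  rw [J.E_one, dist_eq_norm] at hn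
  simp only [zero_sub, norm_neg, norm_one, one_mul] at this
  exact absurd hn (not_lt.2 this)

theorem norm_κ_B_le (R : ℝ) {e : V → ℂ} (he : BM e) {ε : ℝ} (hε : 0 ≤ ε)
    (hb : ∀ b, ‖b‖ ≤ R → ‖e b‖ ≤ ε) (w : K) :
    ‖J.E (κ R 1) ((B (ev 2)).E e w)‖ ≤ ε * ‖J.E (κ R 1) w‖ := by
  have b := ((bm_χ R).mul he).comp (measurable_pi_apply (X := fun _ : Fin 5 => V) 4)
  have : J.E (κ R 1) * (B (ev 2)).E e = J.E (fun z => χ R (z 4) * e (z 4)) * J.E (κ R 1) := by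
    rw [← hJ.m4 _ he, ← hJ.pvm _ _ (bm_κ _ _) (he.comp (measurable_pi_apply 4)),
      ← hJ.pvm _ _ b (bm_κ _ _)]
    congr 1
    funext z
    rcases κ_cases R 1 z with e | ⟨e, -, -, -, e'⟩
    · simp [e]
    · simp [e, χ_of_le (by simpa using e')]
  rw [← ContinuousLinearMap.mul_apply, this, ContinuousLinearMap.mul_apply]
  refine ContinuousLinearMap.le_of_opNorm_le _ (J.norm_E_le b.1 hε fun z => ?_) _
  by_cases hz : ‖z 4‖ ≤ R
  · simpa [χ_of_le hz] using hb _ hz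
  · simpa [χ_of_not hz] using hε

theorem rb_κ_B (R : ℝ) {C : ℝ} (hC : ∀ (w : K) (F : Finset Γ),
    ∑ μ ∈ F, ‖J.E (κ R 1) (I₃.ρ μ⁻¹ w)‖ ^ 2 ≤ C ^ 2 * ‖w‖ ^ 2) {e : Γ → V → ℂ} (he : ∀ μ, BM (e μ))
    {ε : ℝ} (hε : 0 ≤ ε) (w : K) (F : Finset Γ) (hb : ∀ μ ∈ F, ∀ b, ‖b‖ ≤ R → ‖e μ b‖ ≤ ε) :
    ∑ μ ∈ F, ‖I₃.j (J.E (κ R 1) ((B (ev 2)).E (e μ) (I₃.ρ μ⁻¹ w)))‖ ^ 2 ≤ (ε * C) ^ 2 * ‖w‖ ^ 2 := by
  rw [mul_pow, mul_assoc]
  refine le_trans (Finset.sum_le_sum fun μ hμ => ?_)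
    ((Finset.mul_sum _ _ _).symm.trans_le (mul_le_mul_of_nonneg_left (hC w F) (sq_nonneg ε)))
  rw [← mul_pow]
  refine pow_le_pow_left₀ (norm_nonneg _) ?_ 2
  exact ((I₃.j.le_of_opNorm_le I₃.norm_j_le _).trans_eq (one_mul _)).trans
    (h.norm_κ_B_le hJ R (he μ) hε (hb μ hμ) _)

end XH

/-- the finite net of linear maps -/
theorem exists_net {u : V → ℂ} (hu : UniformContinuous u) (R r : ℝ) {ε : ℝ} (hε : 0 < ε) :
    ∃ t : Finset (Fin 3 → Fin 3 → ℝ), ∀ (c : ℝ) (g : G), 0 ≤ c → c * nm g ≤ r → ∃ M ∈ t,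
      ∀ b : V, ‖b‖ ≤ R → ‖u (c • ac g b) - u (Matrix.of M *ᵥ b)‖ ≤ ε := by
  obtain ⟨δ, hδ, hu⟩ := Metric.uniformContinuous_iff.1 hu ε hε
  obtain ⟨t, ht, hc⟩ := Metric.totallyBounded_iff.1
    (isCompact_closedBall (0 : Fin 3 → Fin 3 → ℝ) r).totallyBounded (δ / (3 * |R| + 1))
    (by positivity)
  refine ⟨ht.toFinset, fun c g hc0 hg => ?_⟩
  obtain ⟨M, hM, hd⟩ := Set.mem_iUnion₂.1 (hc (show c • (fun i j => g i j) ∈ _ by
    rw [mem_closedBall_zero_iff, norm_smul, Real.norm_of_nonneg hc0]; exact hg))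
  refine ⟨M, ht.mem_toFinset.2 hM, fun b hb => ?_⟩
  rw [← dist_eq_norm]
  refine (hu ?_).le
  rw [Metric.mem_ball, dist_eq_norm] at hd
  rw [dist_eq_norm]
  have h1 : ∀ i j, |c * g i j - M i j| ≤ δ / (3 * |R| + 1) := fun i j =>
    ((norm_le_pi_norm _ j).trans (norm_le_pi_norm (c • (fun i j => g i j) - M) i)).trans hd.le
  have h2 : ∀ i j, |(c * g i j - M i j) * b j| ≤ δ / (3 * |R| + 1) * |R| := fun i j => by
    rw [abs_mul]
    exact mul_le_mul (h1 i j) ((norm_le_pi_norm b j).trans (hb.trans (le_abs_self R)))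
      (abs_nonneg _) (by positivity)
  refine (pi_norm_lt_iff hδ).2 fun i => ?_
  have e : (c • ac g b - Matrix.of M *ᵥ b) i = (c * g i 0 - M i 0) * b 0 + (c * g i 1 - M i 1) * b 1
      + (c * g i 2 - M i 2) * b 2 := by
    simp only [Pi.sub_apply, Pi.smul_apply, ac_apply, smul_eq_mul, mulVec, dotProduct,
      Fin.sum_univ_three, Matrix.of_apply]
    ring
  have : δ / (3 * |R| + 1) * (3 * |R|) < δ := by
    rw [div_mul_eq_mul_div, div_lt_iff₀ (by positivity)]; nlinarith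
  rw [e, Real.norm_eq_abs]
  linarith [abs_add_three ((c * g i 0 - M i 0) * b 0) ((c * g i 1 - M i 1) * b 1)
    ((c * g i 2 - M i 2) * b 2), h2 i 0, h2 i 1, h2 i 2]

namespace XH

variable (h : XH I I₃ I₃' s L Φ Φ₃ Ψ₃ A B sc sc')
include h

theorem U_B {u : V → ℂ} (hu : BM u) (n : ℕ) (η : K) : I.U (al n) ((B (ev 2)).E u η)
    = (B (ev 2)).E (fun b => u (sc' (Real.exp (-n)) • b)) (I.U (al n) η) := by
  have := h.covB (ev_ne_zero 2) hu (al n)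
  rw [dl_al, ac_al_of _ (by simp [ev]), h.geo.lift'.scal _ (ev_ne_zero 2) _ (Real.exp_ne_zero _) _ hu]
    at this
  exact congrArg (· η) (mul_eq_of_conj _ _ this)

/-- the approximation of `E T_n` by finitely many elements of `Q` -/
theorem approx {u : V → ℂ} (hu : UniformContinuous u) (hb : ∀ b, ‖u b‖ ≤ 1) (he : Ev u) :
    ∃ (τ : ℂ) (C : ℝ), τ ≠ 0 ∧ ∀ ε > 0, ∀ η₁ η₁' : K,
      ∃ (t : Finset (Fin 3 → Fin 3 → ℝ)) (x : (Fin 3 → Fin 3 → ℝ) → K →L[ℂ] K)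
        (c : ℕ → (Fin 3 → Fin 3 → ℝ) → Γ → ℂ), (∀ M, x M ∈ I.Q) ∧ (∀ n M μ, ‖c n M μ‖ ≤ 1) ∧
        ∀ ζ, ζ = η₁ ∨ ζ = η₁' → ∀ η₂, ∀ᶠ n : ℕ in atTop, ‖τ * ⟪ζ, (B (ev 2)).E u η₂⟫_ℂ
          - ∑ M ∈ t, ⟪I.U (al n) ζ, I₃.m (c n M) (x M (I.U (al n) η₂))⟫_ℂ‖
            ≤ ε * (1 + C * (1 + ‖ζ‖) * ‖η₂‖) := by
  classical
  obtain ⟨J, k, D, hJ⟩ := h.exists_jt
  obtain ⟨R, hR⟩ := h.exists_tz hJ
  obtain ⟨C, hC0, hC⟩ := h.sum_κ_le hJ R
  obtain ⟨C₁, hC₁⟩ := sc_exp_neg h.geo.lift' h.com.lc'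
  have bu : BM u := ⟨hu.continuous.measurable, 1, hb⟩
  have bM : ∀ M : Fin 3 → Fin 3 → ℝ, BM fun b => u (Matrix.of M *ᵥ b) := fun M =>
    bu.comp (by fun_prop : Continuous fun b : V => Matrix.of M *ᵥ b).measurable
  let Z := fun M : Fin 3 → Fin 3 → ℝ => J.E (κ R 1) * (B (ev 2)).E fun b => u (Matrix.of M *ᵥ b)
  have rbZ : ∀ M, I₃.RB (Z M) (1 * C) := fun M w F =>
    h.rb_κ_B hJ R hC (e := fun _ b => u (Matrix.of M *ᵥ b)) (fun _ => bM M) zero_le_one w F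
      fun _ _ _ _ => hb _
  have rbK : I₃.RB (J.E (κ R 1)) (1 * C) := fun w F => by
    simpa [POVM.E_one] using h.rb_κ_B hJ R hC (e := fun _ _ => 1) (fun _ => BM.one) zero_le_one w F
      fun _ _ _ _ => by simp
  have U3 := U_eq h.two h.conj
  refine ⟨_, C, hR, fun ε hε η₁ η₁' => ?_⟩
  obtain ⟨R₁, hR₁⟩ := h.geo.tight.seq η₁ ε hε
  obtain ⟨R₂, hR₂⟩ := h.geo.tight.seq η₁' ε hε
  set R' := max R₁ R₂
  obtain ⟨t, ht⟩ := exists_net hu R (Real.exp (C₁ + R')) hε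
  choose! idx hidx hnear using ht
  let i : ℕ → Γ → Fin 3 → Fin 3 → ℝ := fun n μ => idx (sc' (Real.exp (-n))) (dl (ι μ))
  refine ⟨t, fun M => I₃.xq (Z M), fun n M => ic {μ | μ ∈ Sh (L n) R' ∧ i n μ = M},
    fun M => Q3_Q h.two h.conj ((rbZ M).xq_Q (Ind.mul_N (h.κ_N hJ R) (h.B_N (ev_ne_zero 2) (bM M)))),
    fun n M => norm_ic_le _, fun ζ hζ η₂ => ?_⟩
  have hT : ∀ᶠ n : ℕ in atTop, ‖I₃.mJ (ic (Sh (L n) R')ᶜ) (I.U (al n) ζ)‖ ≤ ε := by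
    have mono : ∀ {R₀} (n : ℕ), R₀ ≤ R' → ∀ w, ‖I₃.mJ (ic (Sh (L n) R')ᶜ) w‖
        ≤ 1 * ‖I₃.mJ (ic (Sh (L n) R₀)ᶜ) w‖ := fun {R₀} n hle w =>
      I₃.norm_mJ_mono (bm_ic_Γ _) zero_le_one (fun μ => by
        by_cases h1 : μ ∈ Sh (L n) R'
        · simp [h1]
        · have : μ ∉ Sh (L n) R₀ := fun h2 => h1 ⟨h2.1.trans hle, h2.2.trans (by linarith)⟩
          simp [h1, this]) w
    rcases hζ with rfl | rfl
    · exact hR₁.mono fun n hn => by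
        rw [← U3]; exact (mono n (le_max_left _ _) _).trans (by rwa [one_mul])
    · exact hR₂.mono fun n hn => by
        rw [← U3]; exact (mono n (le_max_right _ _) _).trans (by rwa [one_mul])
  have mix := rbK.mix (h.κ_N hJ R) ζ ((B (ev 2)).E u η₂)
  simp only [U3] at mix
  filter_upwards [hT, hC₁, Metric.tendsto_nhds.1 mix ε hε] with n h1 h2 h3
  set c := sc' (Real.exp (-n))
  have hc : 0 < c := h.geo.lift'.sc_pos _ (Real.exp_ne_zero _)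
  set w := I.U (al n) η₂
  set v := I₃.rw (J.E (κ R 1)) (I.U (al n) ((B (ev 2)).E u η₂)) with hv
  have hw : ‖w‖ = ‖η₂‖ := I.U.norm_map _ _
  have nv : ‖v‖ ≤ C * ‖η₂‖ := by
    refine (ContinuousLinearMap.le_of_opNorm_le _ (rbK.norm_le (by positivity)) _).trans ?_
    rw [one_mul, I.U.norm_map]
    exact mul_le_mul_of_nonneg_left (by
      simpa using ContinuousLinearMap.le_of_opNorm_le _
        ((B (ev 2)).norm_E_le bu.1 zero_le_one hb) η₂) hC0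
  set d := mulG K (ic (Sh (L n) R')) v
    - ∑ M ∈ t, mulG K (ic {μ | μ ∈ Sh (L n) R' ∧ i n μ = M}) (I₃.rw (Z M) w) with hd
  have bc : ∀ μ : Γ, BM fun b => u (c • ac (dl (ι μ)) b) := fun μ => bu.comp (by fun_prop)
  have hi : ∀ μ ∈ Sh (L n) R', c * nm (dl (ι μ)) ≤ Real.exp (C₁ + R') := fun μ hμ => by
    calc c * nm (dl (ι μ)) ≤ Real.exp (C₁ - L n) * Real.exp (L n + R') :=
          mul_le_mul h2 (Sh.nm_dl_le hμ) (nm_pos _).le (Real.exp_pos _).le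
      _ = _ := by rw [← Real.exp_add]; congr 1; ring
  have dμ : ∀ μ, d μ = ic (Sh (L n) R') μ • I₃.j (J.E (κ R 1) ((B (ev 2)).E
      (fun b => u (c • ac (dl (ι μ)) b) - u (Matrix.of (i n μ) *ᵥ b)) (I₃.ρ μ⁻¹ w))) := fun μ => by
    rw [hd, lp.coeFn_sub, lp.coeFn_sum, Pi.sub_apply, Finset.sum_apply, mulG_apply (bm_ic_Γ _)]
    simp only [mulG_apply (bm_ic_Γ _)]
    by_cases hμ : μ ∈ Sh (L n) R'
    · rw [Finset.sum_eq_single_of_mem (i n μ) (hidx _ _ hc.le (hi μ hμ)) fun M _ hM => by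
        rw [ic_of_notMem fun h => hM h.2.symm, zero_smul], ic_of_mem hμ,
        ic_of_mem (show μ ∈ {ν | ν ∈ Sh (L n) R' ∧ i n ν = i n μ} from ⟨hμ, rfl⟩), hv, rbK.apply,
        (rbZ _).apply, h.U_B bu, (B (ev 2)).E_sub (bc μ) (bM _)]
      have := congrArg (· w) (mul_eq_of_conj _ _ (h.ρB (ev_ne_zero 2)
        (f := fun b => u (c • b)) (bu.comp (by fun_prop)) (fun b => by simp only [smul_neg, he _]) μ⁻¹))
      simp only [ContinuousLinearMap.mul_apply, inv_inv] at this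
      simp only [one_smul, ContinuousLinearMap.sub_apply, map_sub, Z, ContinuousLinearMap.mul_apply]
      rw [← this]
    · rw [Finset.sum_eq_zero fun M _ => by rw [ic_of_notMem fun h => hμ h.1, zero_smul],
        ic_of_notMem hμ, zero_smul, zero_smul, sub_zero]
  have nd : ‖d‖ ≤ ε * C * ‖η₂‖ := by
    refine LG.norm_le (by positivity) fun F => ?_
    rw [mul_pow, ← hw]
    refine le_trans (le_of_eq ?_) (h.rb_κ_B hJ R hC (fun μ => (bc μ).sub (bM (i n μ))) hε.le w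
      (F.filter (· ∈ Sh (L n) R')) fun μ hμ => hnear _ _ hc.le (hi μ (Finset.mem_filter.1 hμ).2))
    rw [Finset.sum_filter]
    refine Finset.sum_congr rfl fun μ _ => ?_
    rw [dμ]
    split_ifs with hμ <;> simp [hμ]
  have e1 : ∀ M, ⟪I.U (al n) ζ, I₃.m (ic {μ | μ ∈ Sh (L n) R' ∧ i n μ = M}) (I₃.xq (Z M) w)⟫_ℂ
      = ⟪I₃.J (I.U (al n) ζ), mulG K (ic {μ | μ ∈ Sh (L n) R' ∧ i n μ = M}) (I₃.rw (Z M) w)⟫_ℂ :=
    fun M => by rw [I₃.inner_m, I₃.mJ_eq (bm_ic_Γ _), J_xq h.two h.conj (rbZ M)]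
  have e2 : v = mulG K (ic (Sh (L n) R')) v + mulG K (ic (Sh (L n) R')ᶜ) v := by
    ext μ
    rw [lp.coeFn_add, Pi.add_apply, mulG_apply (bm_ic_Γ _), mulG_apply (bm_ic_Γ _), ← add_smul]
    by_cases hμ : μ ∈ Sh (L n) R' <;> simp [hμ]
  have e3 : ⟪I₃.J (I.U (al n) ζ), v⟫_ℂ - ∑ M ∈ t, ⟪I.U (al n) ζ,
        I₃.m (ic {μ | μ ∈ Sh (L n) R' ∧ i n μ = M}) (I₃.xq (Z M) w)⟫_ℂ
      = ⟪I₃.J (I.U (al n) ζ), d⟫_ℂ + ⟪I₃.mJ (ic (Sh (L n) R')ᶜ) (I.U (al n) ζ), v⟫_ℂ := by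
    have := inner_mulG (K := K) (bm_ic_Γ (Sh (L n) R')ᶜ) (I₃.J (I.U (al n) ζ)) v
    simp only [conj_ic] at this
    rw [I₃.mJ_eq (bm_ic_Γ _), ← this, hd, inner_sub_right, inner_sum]
    simp only [e1]
    conv_lhs => rw [e2, inner_add_right]
    ring
  have b1 : ‖⟪I₃.J (I.U (al n) ζ), d⟫_ℂ‖ ≤ ‖ζ‖ * (ε * C * ‖η₂‖) := by
    refine (norm_inner_le_norm _ _).trans ?_
    rw [I₃.norm_J, I.U.norm_map]; gcongr
  have b2 : ‖⟪I₃.mJ (ic (Sh (L n) R')ᶜ) (I.U (al n) ζ), v⟫_ℂ‖ ≤ ε * (C * ‖η₂‖) :=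
    (norm_inner_le_norm _ _).trans (by gcongr)
  rw [dist_comm, dist_eq_norm] at h3
  refine (norm_sub_le_norm_sub_add_norm_sub _ ⟪I₃.J (I.U (al n) ζ), v⟫_ℂ _).trans ?_
  rw [e3]
  linarith [norm_add_le_of_le b1 b2]

theorem commute_ΦB0 {f u : V → ℂ} (hf : BM f) (h0 : Hom0 f) (hc : ContinuousOn f {0}ᶜ)
    (hu : UniformContinuous u) (hb : ∀ b, ‖u b‖ ≤ 1) (he : Ev u) :
    Commute ((Φ (ev 0)).E f) ((B (ev 2)).E u) := by
  obtain ⟨τ, C, hτ, H⟩ := h.approx hu hb he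
  ext η
  refine ext_inner_left ℂ fun η' => ?_
  set f' := fun a => (starRingEnd ℂ) (f a)
  set T := (Φ (ev 0)).E f
  set T' := (Φ (ev 0)).E f'
  have hT : star T = T' := (Φ (ev 0)).E_star hf
  rw [ContinuousLinearMap.mul_apply, ContinuousLinearMap.mul_apply,
    ← ContinuousLinearMap.adjoint_inner_left, ← ContinuousLinearMap.star_eq_adjoint, hT]
  refine mul_left_cancel₀ hτ (eq_of_forall_dist_le fun δ hδ => ?_)
  set a := (1 + C * (1 + ‖T' η'‖) * ‖η‖) + (1 + C * (1 + ‖η'‖) * ‖T η‖) + 1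
  obtain ⟨t, x, c, hx, hc1, H⟩ := H (δ / (|a| + 1)) (by positivity) η' (T' η')
  have bF : BM fun μ => f (pt μ) := let ⟨C, hC⟩ := hf.2; bm_Γ fun μ => hC _
  have key : ∀ M, Tendsto (fun n : ℕ => ⟪I.U (al n) (T' η'), I₃.m (c n M) (x M (I.U (al n) η))⟫_ℂ
      - ⟪I.U (al n) η', I₃.m (c n M) (x M (I.U (al n) (T η)))⟫_ℂ) atTop (𝓝 0) := fun M => by
    have t1 := (h.pro.tendsto_m hf.conj (fun z hz a => by simp only [h0 z hz a])
      (Complex.continuous_conj.comp_continuousOn hc) η').norm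
    have t2 := (h.pro.sfp h.tight (hx M) hf h0 hc η).norm
    rw [norm_zero] at t1 t2
    have t3 := (t1.mul_const (‖x M‖ * ‖η‖)).add (t2.const_mul ‖η'‖)
    rw [zero_mul, mul_zero, add_zero] at t3
    refine squeeze_zero_norm (fun n => ?_) t3
    set m := I₃.m (c n M)
    have nm : ∀ w, ‖m w‖ ≤ ‖w‖ := fun w => by
      simpa using ContinuousLinearMap.le_of_opNorm_le _ (I₃.norm_m_le zero_le_one (hc1 n M)) w
    set F := I.m fun μ => f (pt μ)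
    have e : ⟪I.m (fun μ => f' (pt μ)) (I.U (al n) η'), m (x M (I.U (al n) η))⟫_ℂ
        = ⟪I.U (al n) η', m (F (x M (I.U (al n) η)))⟫_ℂ := by
      rw [← I.star_m bF, ContinuousLinearMap.star_eq_adjoint, ContinuousLinearMap.adjoint_inner_left,
        ← ContinuousLinearMap.mul_apply F,
        (commute_m_m h.two h.conj bF (bm_Γ (hc1 n M))).eq, ContinuousLinearMap.mul_apply]
    have e2 : ⟪I.U (al n) (T' η'), m (x M (I.U (al n) η))⟫_ℂ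
        - ⟪I.U (al n) η', m (x M (I.U (al n) (T η)))⟫_ℂ
        = -⟪I.m (fun μ => f' (pt μ)) (I.U (al n) η') - I.U (al n) (T' η'), m (x M (I.U (al n) η))⟫_ℂ
          + ⟪I.U (al n) η', m (ContinuousLinearMap.adjoint I.J (I.mJ (fun μ => f (pt μ))
            (x M (I.U (al n) η)) - I.J (x M (I.U (al n) (T η)))))⟫_ℂ := by
      rw [inner_sub_left, e, map_sub, I.adj_J_J, map_sub, inner_sub_right, ← I.m_apply]
      ring
    rw [e2]
    refine norm_add_le_of_le ?_ ?_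
    · rw [norm_neg]
      refine (norm_inner_le_norm _ _).trans (mul_le_mul_of_nonneg_left ((nm _).trans ?_)
        (norm_nonneg _))
      simpa using (x M).le_opNorm (I.U (al n) η)
    · refine (norm_inner_le_norm _ _).trans ?_
      rw [I.U.norm_map]
      exact mul_le_mul_of_nonneg_left ((nm _).trans (I.norm_adj_J_le _)) (norm_nonneg _)
  have key2 := tendsto_finset_sum t fun M _ => key M
  rw [Finset.sum_const_zero] at key2
  obtain ⟨n, h1, h2, h3⟩ := ((H _ (Or.inr rfl) η).and ((H _ (Or.inl rfl) (T η)).and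
    (Metric.tendsto_nhds.1 key2 (δ / (|a| + 1)) (by positivity)))).exists
  rw [dist_zero_right, Finset.sum_sub_distrib] at h3
  rw [← dist_eq_norm] at h1 h2 h3
  have : δ / (|a| + 1) * a ≤ δ := by
    rw [div_mul_eq_mul_div, div_le_iff₀ (by positivity)]
    nlinarith [le_abs_self a]
  linarith [dist_triangle4 (τ * ⟪T' η', (B (ev 2)).E u η⟫_ℂ)
    (∑ M ∈ t, ⟪I.U (al n) (T' η'), I₃.m (c n M) (x M (I.U (al n) η))⟫_ℂ)
    (∑ M ∈ t, ⟪I.U (al n) η', I₃.m (c n M) (x M (I.U (al n) (T η)))⟫_ℂ)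
    (τ * ⟪η', (B (ev 2)).E u (T η)⟫_ℂ), dist_comm (τ * ⟪η', (B (ev 2)).E u (T η)⟫_ℂ)
    (∑ M ∈ t, ⟪I.U (al n) η', I₃.m (c n M) (x M (I.U (al n) (T η)))⟫_ℂ)]

/-- **X1** -/
theorem commute_ΦB {x y : V} (hx : x ≠ 0) (hy : y ≠ 0) (hxy : x ⬝ᵥ y = 0) {f u : V → ℂ}
    (hf : BM f) (hu : BM u) : Commute ((Φ x).E f) ((B y).E u) := by
  have h1 : ∀ f, BM f → Hom0 f → ContinuousOn f {0}ᶜ → ∀ u, BM u →
      Commute ((Φ (ev 0)).E f) ((B (ev 2)).E u) := fun f hf h0 hc u hu => by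
    let W : (V → ℂ) → K →L[ℂ] K := fun u => (B (ev 2)).E (fun b => 1 * u b)
      + (B (ev 2)).E fun b => 1 * u (-b)
    have p1 := (B (ev 2)).isPoly1.comp measurable_id BM.one
    have p2 := (B (ev 2)).isPoly1.comp measurable_neg BM.one
    have pW : MClass fun u => (Φ (ev 0)).E f * (B (ev 2)).E (fun b => 1 * u b) * 1
        - 1 * (B (ev 2)).E (fun b => 1 * u b) * (Φ (ev 0)).E f
        = 1 * (B (ev 2)).E (fun b => 1 * u (-b)) * (Φ (ev 0)).E f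
        - (Φ (ev 0)).E f * (B (ev 2)).E (fun b => 1 * u (-b)) * 1 :=
      ((p1.mul _ _).sub (p1.mul _ _)).mclass ((p2.mul _ _).sub (p2.mul _ _))
    have := pW.of_cc (fun u hc' hs => by
      obtain ⟨C, hC0, hC⟩ := (BM.of_compactSupport hc' hs).exists_nonneg
      have bu := BM.of_compactSupport hc' hs
      have hn : HasCompactSupport fun b => u (-b) := hs.comp_homeomorph (Homeomorph.neg V)
      have := h.commute_ΦB0 hf h0 hc (u := fun b => ((2 * C + 1 : ℝ) : ℂ)⁻¹ * (u b + u (-b)))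
        (HasCompactSupport.uniformContinuous_of_continuous (hs.add hn).mul_left (by fun_prop))
        (fun b => by
          rw [norm_mul, norm_inv, Complex.norm_real, Real.norm_of_nonneg (by positivity),
            inv_mul_le_iff₀ (by positivity)]
          linarith [norm_add_le (u b) (u (-b)), hC b, hC (-b)])
        fun b => by simp only [neg_neg, add_comm]
      rw [(B _).E_smul _ (bu.add (bu.comp measurable_neg)), (B _).E_add bu (bu.comp measurable_neg)]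
        at this
      have h2 := (this.smul_right ((2 * C + 1 : ℝ) : ℂ)).eq
      rw [smul_inv_smul₀ (Complex.ofReal_ne_zero.2 (by positivity)), mul_add, add_mul] at h2
      simp only [one_mul, mul_one]
      rw [sub_eq_sub_iff_add_eq_add, h2, add_comm]) (hu.comp measurable_sg)
    simp only [one_mul, mul_one, sg_neg, ← h.geo.lift'.conc _ u hu] at this
    have h3 : (2 : ℂ) • ((Φ (ev 0)).E f * (B (ev 2)).E u) = (2 : ℂ) • ((B (ev 2)).E u * (Φ (ev 0)).E f) := by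
      rw [two_smul, two_smul, ← sub_eq_sub_iff_add_eq_add, this]
    exact smul_right_injective _ two_ne_zero h3
  have h2 : Commute ((Φ (ev 0)).E f) ((B (ev 2)).E u) := by
    have := (((Φ (ev 0)).isPoly1.mul 1 ((B (ev 2)).E u)).ext_hom0
      ((Φ (ev 0)).isPoly1.mul ((B (ev 2)).E u) 1) fun f hf h0 hc => by
        simpa using (h1 f hf h0 hc u hu).eq) _ (hf.comp (measurable_sg.comp measurable_nrm))
      (hom0_sg_nrm f)
    rw [h.pro.conc _ f hf]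
    simpa using! this
  obtain ⟨g, rfl, rfl⟩ := exists_ac_flag hx hy hxy
  rw [← h.pro.covU _ (ev_ne_zero 0) f hf, ← h.covB (ev_ne_zero 2) hu]
  exact commute_conj _ _ h2

/-- `Φ x` commutes with the lifted point `A x` of the other leg -/
theorem commute_ΦA {x : V} (hx : x ≠ 0) {f u : V → ℂ} (hf : BM f) (hu : BM u) :
    Commute ((Φ x).E f) ((A x).E u) := by
  obtain ⟨g, rfl⟩ := exists_ac_ev hx 0
  rw [← h.pro.covU _ (ev_ne_zero 0) f hf, ← h.covA (ev_ne_zero 0) hu]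
  exact commute_conj _ _ (h.commute_A0
    (fun u hu => h.commute_ΦB (ev_ne_zero 0) (ev_ne_zero 1) (by simp [ev_dot_ev]) hf hu)
    (fun u hu => h.commute_ΦB (ev_ne_zero 0) (ev_ne_zero 2) (by simp [ev_dot_ev]) hf hu) hu)

end XH

end Crest.Agent.N111.Cr
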