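import Crest.Agent.N111.X.One
import Crest.Agent.N111.D.Mid
import Crest.Agent.N111.E.Api

/-!
# Row 111, module X: the support argument.
-/

set_option autoImplicit false
set_option linter.unusedSectionVars false
set_option linter.unusedVariables false

namespace Crest.Agent.N111.Cr

open MeasureTheory Topology Filter Matrix
open scoped InnerProductSpace

/-- `a'` is far from `± a` in the direction `b` -/
def Big (R : ℝ) (a' a b : V) : Prop := ∀ t : ℝ, a' ⨯₃ a = t • (a ⨯₃ b) → R < |t|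

theorem Big.smul {R R' p q r : ℝ} {a' a b : V} (h : Big R (p • a') (q • a) (r • b)) (hr : r ≠ 0)
    (hR : ∀ t, R < |p * t / r| → R' < |t|) : Big R' a' a b := fun t ht => hR t (h _ (by
  simp only [map_smul, LinearMap.smul_apply, ht, smul_smul]
  congr 1
  field_simp))

theorem Big.ac {R : ℝ} {a' a b : V} (g : G) (h : Big R (ac g a') (ac g a) (ac g b)) :
    Big R a' a b := fun t ht => h t (by rw [ac_cross, ac_cross, ht, ac_smul])

theorem exists_sign {a b : V} (h : a = b ∨ a = -b) : ∃ ε : ℝ, |ε| = 1 ∧ a = ε • b := by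
  rcases h with h | h
  exacts [⟨1, abs_one, by rw [h, one_smul]⟩, ⟨-1, by simp, by rw [h, neg_one_smul]⟩]

theorem big_alg {a b a' b' : V} (hY : Big 2 a' a b) (hX : Big 2 b' b a')
    (h1 : a' ⨯₃ b' = a ⨯₃ b ∨ a' ⨯₃ b' = -(a ⨯₃ b)) (h2 : a' ⨯₃ b = a ⨯₃ b ∨ a' ⨯₃ b = -(a ⨯₃ b))
    (h3 : b' ⨯₃ a = a ⨯₃ b ∨ b' ⨯₃ a = -(a ⨯₃ b)) : False := by
  have ha : a ≠ 0 := fun e => by have := hY 0 (by simp [e]); norm_num at this
  have hb : b ≠ 0 := fun e => by have := hX 0 (by simp [e]); norm_num at this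
  obtain ⟨ε₁, e₁, h1⟩ := exists_sign h1
  obtain ⟨ε₂, e₂, h2⟩ := exists_sign h2
  obtain ⟨ε₃, e₃, h3⟩ := exists_sign h3
  have ba : b ⨯₃ a = -(a ⨯₃ b) := (cross_anticomm a b).symm
  obtain ⟨t, ht⟩ := exists_smul_of_cross_eq_zero (b := a' - ε₂ • a) hb (by
    rw [map_sub, map_smul, ← cross_anticomm a' b, h2, ba, smul_neg, sub_self])
  obtain ⟨r, hr⟩ := exists_smul_of_cross_eq_zero (b := b' + ε₃ • b) ha (by
    rw [map_add, map_smul, ← cross_anticomm b' a, h3, neg_add_cancel])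
  obtain rfl := sub_eq_iff_eq_add.1 ht
  obtain rfl := eq_sub_of_add_eq hr
  have q₂ : ε₂ * ε₂ = 1 := by rw [← abs_mul_abs_self, e₂, mul_one]
  simp only [Big, map_add, map_sub, map_smul, LinearMap.add_apply, LinearMap.sub_apply,
    LinearMap.smul_apply, cross_self, ba, smul_zero, add_zero, zero_add, sub_zero, zero_sub,
    smul_neg] at hX hY h1
  have t2 := hY (-t) (by rw [neg_smul])
  have r2 := hX (-(r * ε₂)) (by rw [neg_smul, neg_neg, smul_smul, mul_assoc, q₂, mul_one])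
  have hc : a ⨯₃ b ≠ 0 := fun e => by have := hY 0 (by simp [e]); norm_num at this
  have e : -(r * t) - ε₃ * ε₂ = ε₁ := smul_left_injective ℝ hc (by
    simp only [← h1]
    module)
  rw [abs_neg] at t2
  rw [abs_neg, abs_mul, e₂, mul_one] at r2
  have : |r * t| ≤ 2 := by
    rw [show r * t = -(ε₃ * ε₂) + -ε₁ by linarith]
    refine (abs_add_le _ _).trans ?_
    rw [abs_neg, abs_neg, abs_mul, e₁, e₂, e₃]
    norm_num
  rw [abs_mul] at this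
  nlinarith

theorem exists_sep {c c' : V} (h : ¬ (c' = c ∨ c' = -c)) :
    ∃ U : Set V, MeasurableSet U ∧ (∀ a ∈ U, -a ∈ U) ∧ U ∈ 𝓝 c ∧ Uᶜ ∈ 𝓝 c' := by
  let m : V → ℝ := fun a => min ‖a - c‖ ‖a + c‖
  have hm : Continuous m := by fun_prop
  have h0 : 0 < m c' := lt_min (norm_pos_iff.2 fun e => h (Or.inl (sub_eq_zero.1 e)))
    (norm_pos_iff.2 fun e => h (Or.inr (eq_neg_of_add_eq_zero_left e)))
  have hc : IsClosed {a | m a ≤ m c' / 2} := isClosed_le hm continuous_const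
  refine ⟨_, hc.measurableSet, fun a ha => ?_, ?_, hc.isOpen_compl.mem_nhds fun h => ?_⟩
  · have : m (-a) = m a := by
      simp only [m]
      rw [min_comm, ← norm_neg (-a + c), ← norm_neg (-a - c)]
      congr 2 <;> abel
    exact this.trans_le ha
  · exact hm.continuousAt.preimage_mem_nhds (Iic_mem_nhds (a := m c' / 2) (by simpa [m] using h0))
  · exact absurd h (by simp only [Set.mem_setOf_eq]; linarith)

variable {K : Type} [NormedAddCommGroup K] [InnerProductSpace ℂ K] [CompleteSpace K]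
  {I I₃ I₃' : Ind K} {s : K →L[ℂ] K} {L : ℕ → ℝ} {Φ Φ₃ Ψ₃ A B : V → POVM V K}
  {sc sc' : ℝ → ℝ} {J : POVM (Fin 5 → V) K} {k D : ℝ}

theorem absorb {Y : Type} [MeasurableSpace Y] {P : POVM Y K} (hP : P.IsPVM) {O : Set Y}
    (hO : MeasurableSet O) {F : Y → ℂ} (hF : BM F) (h0 : ∀ y, y ∉ O → F y = 0) :
    P.E (ic O) * P.E F = P.E F := by
  rw [← hP _ _ (BM.ic hO) hF]
  congr 1
  funext y
  by_cases hy : y ∈ O <;> simp [hy, h0]

namespace Jt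

variable (hJ : Jt A B J k D)
include hJ

/-- operators commuting with `B e₂` preserve `± z₀ × z₁` -/
theorem sep {T : K →L[ℂ] K} (hT : ∀ f, BM f → Commute T ((B (ev 2)).E f)) {U : Set V}
    (hU : MeasurableSet U) (sU : ∀ a ∈ U, -a ∈ U) {F F' : (Fin 5 → V) → ℂ} (hF : BM F)
    (hF' : BM F') (h0 : ∀ z, z 0 ⨯₃ z 1 ∉ U → F z = 0) (h0' : ∀ z, z 0 ⨯₃ z 1 ∈ U → F' z = 0) :
    J.E F' * T * J.E F = 0 := by
  have hS : MeasurableSet {z : Fin 5 → V | z 0 ⨯₃ z 1 ∈ U} :=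
    (by fun_prop : Measurable fun z : Fin 5 → V => z 0 ⨯₃ z 1) hU
  have b : BM fun a : V => ic U (k • a) := (BM.ic hU).comp (by fun_prop)
  have e : J.E (ic {z | z 0 ⨯₃ z 1 ∈ U}) = (B (ev 2)).E fun a => ic U (k • a) := by
    rw [← hJ.m4 _ b]
    refine J.E_congr_ae (BM.ic hS) (b.comp (measurable_pi_apply 4)) fun η => ?_
    filter_upwards [hJ.ae η] with z ⟨_, hz, _⟩
    have : z 0 ⨯₃ z 1 ∈ U ↔ k • z 4 ∈ U := by
      rcases hz with hz | hz <;> rw [hz]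
      exact ⟨fun h => by simpa using sU _ h, sU _⟩
    by_cases h : k • z 4 ∈ U <;> simp [this, h]
  have e2 : J.E F' * J.E (ic {z | z 0 ⨯₃ z 1 ∈ U}) = 0 := by
    rw [← hJ.pvm _ _ hF' (BM.ic hS), ← J.E_zero]
    congr 1
    funext z
    by_cases h : z 0 ⨯₃ z 1 ∈ U <;> simp [h, h0']
  rw [← absorb hJ.pvm hS hF h0, ← mul_assoc, mul_assoc _ T, e, (hT _ b).eq, ← e, ← mul_assoc, e2,
    zero_mul, zero_mul]

theorem supp1 {T : K →L[ℂ] K} (hT : ∀ f, BM f → Commute T ((B (ev 2)).E f))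
    {z : Fin 2 → Fin 5 → V} (hz : z ∈ supp fun F : Fin 2 → _ => J.E (F 0) * T * J.E (F 1)) :
    z 0 0 ⨯₃ z 0 1 = z 1 0 ⨯₃ z 1 1 ∨ z 0 0 ⨯₃ z 0 1 = -(z 1 0 ⨯₃ z 1 1) := by
  by_contra H
  obtain ⟨U, hU, sU, h1, h0⟩ := exists_sep H
  have c : Continuous fun y : Fin 5 → V => y 0 ⨯₃ y 1 := by fun_prop
  refine hz ![{y | y 0 ⨯₃ y 1 ∉ U}, {y | y 0 ⨯₃ y 1 ∈ U}] (fun i => ?_) fun F hF h => ?_
  · fin_cases i
    exacts [c.continuousAt.preimage_mem_nhds h0, c.continuousAt.preimage_mem_nhds h1]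
  · exact hJ.sep hT hU sU (hF 1) (hF 0) (h 1) fun y hy => h 0 y fun h => h hy

theorem supp2 {S T : K →L[ℂ] K} {i l : Fin 5}
    (hS : ∀ f, BM f → Commute S (J.E fun y => f (y i)))
    (hT : ∀ f, BM f → Commute T (J.E fun y => f (y l)))
    (hB : ∀ f, BM f → Commute T ((B (ev 2)).E f))
    (hil : ∀ y : Fin 5 → V, y i ⨯₃ y l = y 0 ⨯₃ y 1 ∨ y i ⨯₃ y l = -(y 0 ⨯₃ y 1))
    {z : Fin 2 → Fin 5 → V} (hz : z ∈ supp fun F : Fin 2 → _ => J.E (F 0) * (S * T) * J.E (F 1)) :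
    z 0 i ⨯₃ z 1 l = z 1 0 ⨯₃ z 1 1 ∨ z 0 i ⨯₃ z 1 l = -(z 1 0 ⨯₃ z 1 1) := by
  by_contra H
  obtain ⟨U, hU, sU, h1, h0⟩ := exists_sep H
  have c : Continuous fun y : Fin 5 → V => y 0 ⨯₃ y 1 := by fun_prop
  have c' : Continuous fun p : V × V => p.1 ⨯₃ p.2 := by fun_prop
  obtain ⟨N, N', oN, mN, oN', mN', hN⟩ := mem_nhds_prod_iff'.1
    (c'.continuousAt.preimage_mem_nhds (x := (z 0 i, z 1 l)) h0)
  have m : ∀ (i : Fin 5) {N : Set V}, IsOpen N → IsOpen {y : Fin 5 → V | y i ∈ N} := fun i N h =>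
    h.preimage (continuous_apply i)
  refine hz ![{y | y i ∈ N}, {y | y l ∈ N'} ∩ {y | y 0 ⨯₃ y 1 ∈ U}] (fun i => ?_) fun F hF h => ?_
  · fin_cases i
    exacts [(m _ oN).mem_nhds mN,
      inter_mem ((m _ oN').mem_nhds mN') (c.continuousAt.preimage_mem_nhds h1)]
  have b := BM.ic (m i oN).measurableSet
  have b' := BM.ic (m l oN').measurableSet
  have e := hJ.sep hB hU sU (hF 1) (b.mul b') (fun y hy => h 1 y fun h => hy h.2) fun y hy => by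
    by_cases h1 : y i ∈ N
    · by_cases h2 : y l ∈ N'
      · refine absurd ?_ (hN (Set.mk_mem_prod h1 h2))
        rcases hil y with e | e
        exacts [(e ▸ hy : y i ⨯₃ y l ∈ U), (e ▸ sU _ hy : y i ⨯₃ y l ∈ U)]
      · simp [h2]
    · simp [h1]
  have c1 : Commute S (J.E (ic {y | y i ∈ N})) := hS _ (BM.ic oN.measurableSet)
  have c2 : Commute T (J.E (ic {y | y l ∈ N'})) := hT _ (BM.ic oN'.measurableSet)
  rw [hJ.pvm _ _ b b'] at e
  beta_reduce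
  rw [← absorb hJ.pvm (m i oN).measurableSet (hF 0) (h 0), (hJ.pvm.commute b (hF 0)).eq,
    ← absorb hJ.pvm (m l oN').measurableSet (hF 1) fun y hy => h 1 y fun h => hy h.1]
  simp only [mul_assoc] at e ⊢
  rw [← mul_assoc T, c2.eq, ← mul_assoc _ S, ← c1.eq]
  simp only [mul_assoc]
  rw [e, mul_zero, mul_zero]

end Jt

/-- admissible triples of functions -/
structure Adm (R : ℝ) (f' g f : V → ℂ) : Prop where
  b1 : BM f'
  b2 : BM g
  b3 : BM f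
  ex : ∃ O' O₂ O : Set V, IsOpen O' ∧ IsOpen O₂ ∧ IsOpen O ∧ (∀ a, a ∉ O' → f' a = 0) ∧
    (∀ a, a ∉ O₂ → g a = 0) ∧ (∀ a, a ∉ O → f a = 0) ∧ ∀ a' ∈ O', ∀ b ∈ O₂, ∀ a ∈ O, Big R a' a b

/-- moving a function on `V/±` -/
noncomputable def mv (g : G) (f : V → ℂ) (a : V) : ℂ := f (sg (ac g a))

theorem bm_mv (g : G) {f : V → ℂ} (hf : BM f) : BM (mv g f) := hf.comp (by fun_prop)

theorem Adm.mv {R : ℝ} {f' g f : V → ℂ} (h : Adm R f' g f) (γ : G) :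
    Adm R (mv γ f') (mv γ g) (mv γ f) := by
  obtain ⟨O', O₂, O, o1, o2, o3, z1, z2, z3, hb⟩ := h.ex
  let S : Set V → Set V := fun O => {a | ∃ ε : ℝ, |ε| = 1 ∧ ε • ac γ a ∈ O}
  have o : ∀ O, IsOpen O → IsOpen (S O) := fun O hO => isOpen_iff_mem_nhds.2 fun a ⟨ε, hε, ha⟩ =>
    mem_of_superset ((hO.preimage (by fun_prop : Continuous fun a => ε • ac γ a)).mem_nhds ha)
      fun b hb => ⟨ε, hε, hb⟩
  have z : ∀ (O : Set V) (f : V → ℂ), (∀ a, a ∉ O → f a = 0) → ∀ a, a ∉ S O → Cr.mv γ f a = 0 :=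
    fun O f hf a ha => hf _ fun h => ha <| by
      obtain ⟨ε, hε, e⟩ := exists_sign (sg_eq (ac γ a))
      exact ⟨ε, hε, e ▸ h⟩
  refine ⟨bm_mv _ h.b1, bm_mv _ h.b2, bm_mv _ h.b3, S O', S O₂, S O, o _ o1, o _ o2, o _ o3,
    z _ _ z1, z _ _ z2, z _ _ z3, fun a' ⟨p, hp, ha'⟩ b ⟨r, hr, hb'⟩ a ⟨q, hq, ha⟩ => ?_⟩
  refine ((hb _ ha' _ hb' _ ha).smul (fun e => by simp [e] at hr) fun t ht => ?_).ac γ
  rwa [abs_div, abs_mul, hp, hr, one_mul, div_one] at ht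

theorem Adm.scal {R R' c : ℝ} {f' g f : V → ℂ} (h : Adm R f' g f) (hc : 0 < c) (hR : R' ≤ R * c) :
    Adm R' f' (fun b => g (c • b)) f := by
  obtain ⟨O', O₂, O, o1, o2, o3, z1, z2, z3, hb⟩ := h.ex
  refine ⟨h.b1, h.b2.comp (by fun_prop), h.b3, O', (fun b => c • b) ⁻¹' O₂, O, o1,
    o2.preimage (by fun_prop), o3, z1, fun a ha => z2 _ ha, z3, fun a' ha' b hb' a ha => ?_⟩
  refine Big.smul (p := 1) (q := 1) (by simpa using hb _ ha' _ hb' _ ha) hc.ne' fun t ht => ?_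
  rw [one_mul, abs_div, abs_of_pos hc, lt_div_iff₀ hc] at ht
  exact hR.trans_lt ht

/-- the normalised families -/
def Fam (Φ A : V → POVM V K) (x x' : V) (R : ℝ) : Set (K →L[ℂ] K) :=
  {Y | ∃ f' g u f, Adm R f' g f ∧ BM u ∧ Y = (A x).E f' * (A x').E g * (Φ x').E u * (A x).E f}

namespace XH

variable (h : XH I I₃ I₃' s L Φ Φ₃ Ψ₃ A B sc sc')
include h

theorem mul_fam {X Y : K →L[ℂ] K} (hX : X ∈ Fam Φ A (ev 1) (ev 0) 2)
    (hY : Y ∈ Fam Φ A (ev 0) (ev 1) 2) : X * Y = 0 := by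
  obtain ⟨J, k, D, hJ⟩ := h.exists_jt
  obtain ⟨f', g, u, f, ⟨b1, b2, b3, O', O₂, O, o1, o2, o3, z1, z2, z3, hb⟩, hu, rfl⟩ := hX
  obtain ⟨p', q, v, p, ⟨c1, c2, c3, P', P₂, P, q1, q2, q3, y1, y2, y3, hc⟩, hv, rfl⟩ := hY
  have e := ev_ne_zero
  set S := (Φ (ev 0)).E u
  set T := (Φ (ev 1)).E v
  have S0 : ∀ f, BM f → Commute S ((A (ev 0)).E f) := fun f hf => h.commute_ΦA (e 0) hu hf
  have T1 : ∀ f, BM f → Commute T ((A (ev 1)).E f) := fun f hf => h.commute_ΦA (e 1) hv hf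
  have SB : ∀ f, BM f → Commute S ((B (ev 2)).E f) := fun f hf =>
    h.commute_ΦB (e 0) (e 2) (by simp [ev_dot_ev]) hu hf
  have TB : ∀ f, BM f → Commute T ((B (ev 2)).E f) := fun f hf =>
    h.commute_ΦB (e 1) (e 2) (by simp [ev_dot_ev]) hv hf
  have ST : S * T = T * S := (h.ΦΦ (e 0) (e 1) hu hv).eq
  have m := fun (i : Fin 5) {f : V → ℂ} (hf : BM f) =>
    hf.comp (measurable_pi_apply (X := fun _ : Fin 5 => V) i)
  have o : ∀ (i : Fin 5) {N : Set V}, IsOpen N → IsOpen {y : Fin 5 → V | y i ∈ N} := fun i N h =>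
    h.preimage (continuous_apply i)
  have key := (isPoly_two J J (S * T)).nullOn_of_disjoint
    (O := ![{y | y 1 ∈ O'} ∩ {y | y 0 ∈ O₂} ∩ {y | y 0 ∈ P'},
      {y | y 1 ∈ O} ∩ {y | y 1 ∈ P₂} ∩ {y | y 0 ∈ P}])
    (fun i => by
      fin_cases i
      exacts [isSigmaCompact_of_isOpen (((o _ o1).inter (o _ o2)).inter (o _ q1)),
        isSigmaCompact_of_isOpen (((o _ o3).inter (o _ q2)).inter (o _ q3))])
    (fun z hz hs => big_alg (hc _ (hz 0).2 _ (hz 1).1.2 _ (hz 1).2)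
      (hb _ (hz 0).1.1 _ (hz 0).1.2 _ (hz 1).1.1)
      (hJ.supp1 (fun f hf => (SB f hf).mul_left (TB f hf)) hs)
      (hJ.supp2 (fun f hf => (hJ.m0 f hf).symm ▸ S0 f hf) (fun f hf => (hJ.m1 f hf).symm ▸ T1 f hf)
        TB (fun y => Or.inl rfl) hs)
      (hJ.supp2 (fun f hf => (hJ.m1 f hf).symm ▸ T1 f hf) (fun f hf => (hJ.m0 f hf).symm ▸ S0 f hf)
        SB (fun y => Or.inr (cross_anticomm _ _).symm) (ST ▸ hs)))
    ![fun y => f' (y 1) * g (y 0) * p' (y 0), fun y => f (y 1) * q (y 1) * p (y 0)]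
    (bm_vec2 (((m 1 b1).mul (m 0 b2)).mul (m 0 c1)) (((m 1 b3).mul (m 1 c2)).mul (m 0 c3)))
    (fun i y hy => by
      fin_cases i <;> simp only [Fin.zero_eta, Fin.mk_one, cons_val_zero, cons_val_one,
        Set.mem_inter_iff, Set.mem_setOf_eq, not_and_or] at hy ⊢ <;>
        rcases hy with (hy | hy) | hy <;> simp [z1, z2, z3, y1, y2, y3, hy])
  simp only [cons_val_zero, cons_val_one] at key
  rw [hJ.pvm _ _ ((m 1 b1).mul (m 0 b2)) (m 0 c1), hJ.pvm _ _ (m 1 b1) (m 0 b2),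
    hJ.pvm _ _ ((m 1 b3).mul (m 1 c2)) (m 0 c3), hJ.pvm _ _ (m 1 b3) (m 1 c2), hJ.m0 _ b2,
    hJ.m0 _ c1, hJ.m0 _ c3, hJ.m1 _ b1, hJ.m1 _ b3, hJ.m1 _ c2] at key
  rw [← key]
  simp only [mul_assoc]
  congr 2
  rw [← mul_assoc ((A (ev 1)).E f), (h.com.AA _ _ (e 1) (e 0) _ _ b3 c1).eq, mul_assoc,
    ← mul_assoc S, (S0 _ c1).eq, mul_assoc, ← mul_assoc _ T, ← (T1 _ c2).eq, mul_assoc,
    ← mul_assoc _ T, ← (T1 _ b3).eq, mul_assoc]

theorem C_A {a : K →L[ℂ] K} (ha : a ∈ I.C) : ∃ γ : G, ∀ x, x ≠ 0 → ∀ f, BM f →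
    a * (A x).E f = (A x).E (mv γ f) * a := by
  obtain ⟨c, hc, μ, rfl⟩ := C_decomp h.two h.conj ha
  refine ⟨ι μ⁻¹, fun x hx f hf => ?_⟩
  have := mul_eq_of_conj _ _ (h.geo.lift.covρ x hx _ (hf.comp measurable_sg) (Ap2.ev_sg f) μ)
  rw [h.geo.lift.conc x f hf, mul_assoc, this, ← mul_assoc, ← mul_assoc]
  congr 1
  exact (I₃.mem_N.1 (h.A_N hx (bm_mv _ hf)) c hc).eq

theorem fam_conj {x x' : V} (hx : x ≠ 0) (hx' : x' ≠ 0) {R : ℝ} (γ : G)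
    (H : ∀ Y ∈ Fam Φ A (ac γ x) (ac γ x') R, Y = 0) : ∀ Y ∈ Fam Φ A x x' R, Y = 0 := by
  rintro _ ⟨f', g, u, f, ha, hu, rfl⟩
  refine conj_eq_zero I.U γ (H _ ⟨f', g, u, f, ha, hu, ?_⟩)
  rw [← h.covA hx ha.b1, ← h.covA hx' ha.b2, ← h.covA hx ha.b3, ← h.pro.covU _ hx' u hu,
    conj_mul_conj, conj_mul_conj, conj_mul_conj]

theorem fam_two : ∀ Y ∈ Fam Φ A (ev 0) (ev 1) 2, Y = 0 := by
  by_contra H
  push Not at H
  have e := ev_ne_zero
  obtain ⟨w, w0, w1⟩ := exists_ac_pair (x := ev 1) (x' := ev 0) (by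
    rw [← cross_anticomm, Geo2.ev01]; exact neg_ne_zero.2 (e 2))
  obtain ⟨Y, hY, hne⟩ := H
  refine hne (h.fam_conj (e 0) (e 1) w (fun X hX => ?_) Y hY)
  rw [w0, w1] at hX
  refine I.range_lemma (𝒴 := Fam Φ A (ev 0) (ev 1) 2) ?_ ?_ (show (0 : Fin 3) ≠ 2 by decide) ?_
    ⟨Y, hY, hne⟩ fun Y hY => h.mul_fam hX hY
  · rintro _ ⟨f', g, u, f, ha, hu, rfl⟩ a hC
    obtain ⟨γ, hγ⟩ := h.C_A hC
    refine ⟨_, ⟨_, _, u, _, ha.mv γ, hu, rfl⟩, ?_⟩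
    simp only [← mul_assoc]
    rw [hγ _ (e 0) _ ha.b1, mul_assoc _ a, hγ _ (e 1) _ ha.b2, ← mul_assoc, mul_assoc _ a,
      (I.mem_N.1 (pro_N h.pro (e 1) hu) a hC).eq, ← mul_assoc, mul_assoc _ a, hγ _ (e 0) _ ha.b3,
      ← mul_assoc]
  · rintro _ ⟨f', g, u, f, ha, hu, rfl⟩ μ
    have c := fun x hx f hf => (I₃.mem_N.1 (h.A_N (x := x) hx (f := f) hf) _
      (ρ_C3 h.two h.conj μ)).eq
    have := mul_eq_of_conj _ _ (h.pro.covρ _ (e 1) _ hu.sg_nrm (hom0_sg_nrm u) μ)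
    rw [← h.pro.conc _ u hu] at this
    refine ⟨_, ⟨f', g, _, f, ha, hu.sg_nrm.comp (measurable_ac (ι μ⁻¹)), rfl⟩, ?_⟩
    simp only [← mul_assoc]
    rw [c _ (e 0) _ ha.b1, mul_assoc _ (I.ρ μ), c _ (e 1) _ ha.b2, ← mul_assoc, mul_assoc _ (I.ρ μ),
      this, ← mul_assoc, mul_assoc _ (I.ρ μ), c _ (e 0) _ ha.b3, ← mul_assoc]
  · rintro _ ⟨f', g, u, f, ha, hu, rfl⟩ b
    refine ⟨_, ⟨f', g, u, f, ha, hu, rfl⟩, mul_eq_of_conj _ _ ?_⟩
    rw [← conj_mul_conj, ← conj_mul_conj, ← conj_mul_conj, h.covA (e 0) ha.b1, h.covA (e 1) ha.b2,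
      h.covA (e 0) ha.b3, h.pro.covU _ (e 1) u hu]
    simp [ac_tv, ev]

theorem fam_all {r : ℝ} (hr : 0 < r) : ∀ Y ∈ Fam Φ A (ev 0) (ev 1) r, Y = 0 := by
  have e := ev_ne_zero
  obtain ⟨c, hc, -, -, hn, -⟩ := h.geo.lift.lc_lin h.geo.tight.1 h.com.lc
  obtain ⟨n, hn'⟩ := exists_int_gt (Real.log (2 / r) / c)
  have hz := Real.exp_ne_zero n
  have p := h.geo.lift.sc_pos _ hz
  obtain ⟨γ, g0, g1⟩ := exists_ac_pair (x := ev 0) (x' := Real.exp n • ev 1) (by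
    rw [map_smul, Geo2.ev01]; exact smul_ne_zero hz (e 2))
  refine h.fam_conj (e 0) (e 1) γ ?_
  rintro _ ⟨f', g, u, f, ha, hu, rfl⟩
  refine h.fam_two _ ⟨f', _, u, f, ha.scal p ?_, hu, ?_⟩
  · rw [div_lt_iff₀ hc, mul_comm, ← hn, Real.log_lt_log_iff (by positivity) p, div_lt_iff₀ hr] at hn'
    linarith
  · rw [g0, g1, h.geo.lift.scal _ (e 1) _ hz _ ha.b2, h.pro.scal _ (e 1) _ hz _ hu]

theorem nl_A {u : V → ℂ} (hu : BM u) :
    Mid.Nl fun f : Fin 2 → V → ℂ => (A (ev 0)).E (f 0) * (Φ (ev 1)).E u * (A (ev 0)).E (f 1) := by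
  refine Mid.nl_of_supp (isPoly_two _ _ _) fun z hz => ?_
  by_contra H
  have hδ : 0 < ‖z 0 ⨯₃ z 1‖ / 2 := half_pos (norm_pos_iff.2 H)
  set δ := ‖z 0 ⨯₃ z 1‖ / 2 with hd
  set M := ‖z 1‖ + 1
  have hM : 0 < M := by positivity
  obtain ⟨O', O, o1, o2, m1, m2, hO⟩ := isOpen_prod_iff.1
    ((isOpen_lt (continuous_const (y := δ)) (by fun_prop : Continuous fun p : V × V =>
      ‖p.1 ⨯₃ p.2‖)).inter (isOpen_lt (by fun_prop : Continuous fun p : V × V => ‖p.2‖)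
      (continuous_const (y := M)))) (z 0) (z 1) ⟨by simp only [Set.mem_setOf_eq]; linarith,
      lt_add_one ‖z 1‖⟩
  refine hz ![O', O] (fun i => by fin_cases i; exacts [o1.mem_nhds m1, o2.mem_nhds m2])
    fun f hf h0 => ?_
  have key : ∀ n : ℕ, (A (ev 0)).E (f 0) * (A (ev 1)).E (ic (Metric.ball 0 (n + 1)))
      * (Φ (ev 1)).E u * (A (ev 0)).E (f 1) = 0 := fun n =>
    h.fam_all (r := δ / (2 * M * (n + 1))) (by positivity) _ ⟨_, _, u, _, ⟨hf 0,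
      BM.ic Metric.isOpen_ball.measurableSet, hf 1, O', _, O, o1, Metric.isOpen_ball, o2, h0 0,
      fun a => ic_of_notMem, h0 1, fun a' ha' b hb a ha t ht => by
        obtain ⟨h1, h2⟩ := hO (Set.mk_mem_prod ha' ha)
        simp only [Set.mem_setOf_eq, ht, norm_smul, Real.norm_eq_abs] at h1 h2
        rw [mem_ball_zero_iff] at hb
        rw [div_lt_iff₀ (by positivity)]
        refine h1.trans_le (mul_le_mul_of_nonneg_left ((norm_cross_le _ _).trans ?_) (abs_nonneg _))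
        gcongr⟩, hu, rfl⟩
  ext η
  have t := (((A (ev 0)).E (f 0)).continuous.tendsto _).comp ((A (ev 1)).tendsto_E
    (f := fun n : ℕ => ic (Metric.ball 0 (n + 1))) (g := fun _ => 1) (C := 1)
    (fun n => (BM.ic Metric.isOpen_ball.measurableSet).1) (fun n => norm_ic_le _)
    (fun b => tendsto_const_nhds.congr' ((eventually_ge_atTop ⌈‖b‖⌉₊).mono fun n hn => by
      refine (ic_of_mem (mem_ball_zero_iff.2 ?_)).symm
      linarith [Nat.ceil_le.1 hn])) ((Φ (ev 1)).E u ((A (ev 0)).E (f 1) η)))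
  rw [POVM.E_one] at t
  exact tendsto_nhds_unique t (tendsto_const_nhds.congr fun n => (congrArg (· η) (key n)).symm)

theorem commute_01 {u f : V → ℂ} (hu : BM u) (hf : BM f) :
    Commute ((Φ (ev 1)).E u) ((Φ₃ (ev 0)).E f) := by
  have N : Mid.Nl fun f : Fin 2 → V → ℂ =>
      (Φ₃ (ev 0)).E (f 0) * (Φ (ev 1)).E u * (Φ₃ (ev 0)).E (f 1) := fun O hO hc f hf h0 => by
    have := h.nl_A hu (fun i => cone (O i)) (fun i => isOpen_cone (hO i))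
      (fun a ⟨z, _, ha⟩ b ⟨w, _, hb⟩ e => hc _ ha _ hb (by simp [e])) (fun i a => f i (nrm a))
      (fun i => (hf i).comp measurable_nrm) fun i a ha => h0 i _ fun h => ha <| by
        rcases eq_or_ne a 0 with rfl | e
        · exact subset_cone _ (by simpa using h)
        · exact ⟨_, inv_ne_zero (norm_ne_zero_iff.2 e), h⟩
    beta_reduce at this ⊢
    rwa [← h.geo.lift.proj _ (ev_ne_zero 0) _ (hf 0), ← h.geo.lift.proj _ (ev_ne_zero 0) _ (hf 1)]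
      at this
  have := diag_proj (h.geo.pro.proj _) (h.geo.pro.proj _) N.supp hf.sg_nrm (hom0_sg_nrm f)
    BM.one BM.one
  simp only [mul_one, POVM.E_one, one_mul, ← h.geo.pro.conc _ f hf] at this
  exact this.symm

end XH

end Crest.Agent.N111.Cr
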